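import Vale.Agent.P214.INTM.M1

/-! Theorem M of INT, part (i): the mass fraction stays near the same integer `Q` down to every
scale above which the excess is small. -/

open Set Filter Topology MeasureTheory Metric
open scoped RealInnerProductSpace ENNReal

namespace Vale.Agent.P214.INTM

open Vale.Agent.P214 Vale.Agent.P214.FV Vale.Agent.P214.INT

set_option linter.unusedSectionVars false

/-- black box N: the mass fraction is near an integer at small excess -/
def ThmN (E : Type*) [NormedAddCommGroup E] [InnerProductSpace ℝ E] [FiniteDimensional ℝ E]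
    [MeasurableSpace E] [BorelSpace E] (m : ℕ) : Prop :=
  ∀ M ε : ℝ, 0 < M → 0 < ε → ∃ δ : ℝ, 0 < δ ∧
    ∀ (T : Submodule ℝ E) (G : Set E) (h : ℝ) (ν : Measure E) (P : E → E →L[ℝ] E) (S : Set E)
      (θ : E → ℕ) (J : E → ℝ), IntCyl m T G h ν P S θ J → ∀ (z : E) (r : ℝ), 0 < r →
      ball (T.starProjection z) (2 * r) ⊆ G → ν.real (cyl T z (2 * r)) ≤ M * r ^ m →
      exc m T ν P z (2 * r) ≤ δ → ∃ q : ℕ, |htot m T ν z r / cg m - q| ≤ ε

variable {E : Type*} [NormedAddCommGroup E] [InnerProductSpace ℝ E] [FiniteDimensional ℝ E]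
  [MeasurableSpace E] [BorelSpace E]

variable {T : Submodule ℝ E} {z x y v : E} {r s h : ℝ} {m : ℕ} {G : Set E} {ν : Measure E}
  {P : E → E →L[ℝ] E} {S : Set E} {θ : E → ℕ} {J : E → ℝ}

lemma htot_nonneg (hr : 0 < r) : 0 ≤ htot m T ν x r := by
  rw [htot_eq]
  exact div_nonneg (integral_nonneg fun y => hcut_nonneg _ _ _) (by positivity)

lemma integrable_hcut [IsFiniteMeasure ν] (x : E) (r : ℝ) : Integrable (hcut T x r) ν := by
  refine (integrable_const (1:ℝ)).mono' (contDiff_hcut _ r).continuous.aestronglyMeasurable ?_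
  exact Eventually.of_forall fun y => by
    rw [Real.norm_of_nonneg (hcut_nonneg _ _ _)]; exact hcut_le_one _ _ _

/-- mass of a cylinder in terms of the mass fraction of a larger one -/
lemma mass_le_htot [IsFiniteMeasure ν] {t : ℝ} {c : ℝ} (hc : 0 < c) (ht : 0 < t)
    (hst : s < t) (hs : 0 < s) (hc2 : c ≤ (1 - s ^ 2 / t ^ 2) ^ 2) :
    ν.real (cyl T x s) ≤ c⁻¹ * (htot m T ν x t * t ^ m) := by
  have h1 : ∀ y, c * (cyl T x s).indicator (fun _ => (1:ℝ)) y ≤ hcut T x t y := by
    intro y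
    by_cases hy : y ∈ cyl T x s
    · rw [indicator_of_mem hy, mul_one, hcut_eq]
      rw [mem_cyl] at hy
      have h2 : ‖T.starProjection (y - x)‖ ^ 2 / t ^ 2 ≤ s ^ 2 / t ^ 2 := by gcongr
      have h3 : s ^ 2 / t ^ 2 ≤ 1 := by
        rw [div_le_one (by positivity)]; gcongr
      unfold prof
      rw [max_eq_left (by linarith)]
      have h4 : 0 ≤ 1 - s ^ 2 / t ^ 2 := by linarith
      refine hc2.trans ?_
      gcongr
    · rw [indicator_of_notMem hy, mul_zero]; exact hcut_nonneg _ _ _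
  have h2 : c * ν.real (cyl T x s) ≤ ∫ y, hcut T x t y ∂ν := by
    calc c * ν.real (cyl T x s) = ∫ y, c * (cyl T x s).indicator (fun _ => (1:ℝ)) y ∂ν := by
          rw [integral_const_mul, integral_indicator isOpen_cyl.measurableSet]; simp
      _ ≤ ∫ y, hcut T x t y ∂ν :=
          integral_mono (((integrable_const (1:ℝ)).indicator isOpen_cyl.measurableSet).const_mul c)
            (integrable_hcut x t) h1
  have h3 : htot m T ν x t * t ^ m = ∫ y, hcut T x t y ∂ν := by
    rw [htot_eq]; unfold Im; field_simp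
  rw [h3, inv_mul_eq_div, le_div_iff₀ hc]
  linarith

/-- half radius: factor two -/
lemma mass_le_two [IsFiniteMeasure ν] (hs : 0 < s) :
    ν.real (cyl T x s) ≤ 2 * (htot m T ν x (2 * s) * (2 * s) ^ m) := by
  have := mass_le_htot (T := T) (ν := ν) (x := x) (m := m) (s := s) (t := 2 * s) (c := 1 / 2)
    (by norm_num) (by linarith) (by linarith) hs (by
      have : s ^ 2 / (2 * s) ^ 2 = 1 / 4 := by field_simp; norm_num
      rw [this]; norm_num)
  simpa using this

/-- radius `6/7`: factor fifteen -/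
lemma mass_le_fifteen [IsFiniteMeasure ν] (hr : 0 < r) :
    ν.real (cyl T x (3 * r)) ≤ 15 * (htot m T ν x (7 * r / 2) * (7 * r / 2) ^ m) := by
  have := mass_le_htot (T := T) (ν := ν) (x := x) (m := m) (s := 3 * r) (t := 7 * r / 2)
    (c := 1 / 15) (by norm_num) (by linarith) (by linarith) (by linarith) (by
      have : (3 * r) ^ 2 / (7 * r / 2) ^ 2 = 36 / 49 := by field_simp; norm_num
      rw [this]; norm_num)
  simpa using this

/-- **dyadic continuation of an integer** -/
lemma dyadic {f : ℝ → ℝ} {r s₀ ε : ℝ} {Q : ℕ} (hr : 0 < r) (hs₀ : 0 < s₀) (hε : ε ≤ 1 / 12)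
    (hr0 : |f r - Q| ≤ ε)
    (hstep : ∀ t t', s₀ ≤ t' → t' ≤ t → t ≤ r → t ≤ 2 * t' → |f t' - f t| ≤ 1 / 12)
    (hint : ∀ t, s₀ ≤ t → t ≤ r → (∀ u, 2 * t ≤ u → u ≤ r → |f u - Q| ≤ ε) →
      ∃ q : ℕ, |f t - q| ≤ ε) :
    ∀ t, s₀ ≤ t → t ≤ r → |f t - Q| ≤ ε := by
  have key : ∀ k : ℕ, ∀ t, s₀ ≤ t → r / 2 ^ k ≤ t → t ≤ r → |f t - Q| ≤ ε := by
    intro k
    induction k with
    | zero =>
      intro t _ h1 h2
      rw [pow_zero, div_one] at h1
      rw [le_antisymm h2 h1]; exact hr0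
    | succ k ih =>
      intro t hs h1 h2
      by_cases hk : r / 2 ^ k ≤ t
      · exact ih t hs hk h2
      · rw [not_le] at hk
        have h3 : r / 2 ^ k ≤ 2 * t := by
          rw [pow_succ, ← div_div] at h1; linarith
        have h4 : r / 2 ^ k ≤ r := div_le_self hr.le (one_le_pow₀ (by norm_num))
        have h5 := ih (r / 2 ^ k) (hs.trans hk.le) le_rfl h4
        have h6 := hstep (r / 2 ^ k) t hs hk.le h4 h3
        obtain ⟨q, hq⟩ := hint t hs h2 fun u hu hur => ih u (by linarith) (h3.trans hu) hur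
        have h7 : |(q:ℝ) - Q| < 1 := by
          rw [abs_lt]; rw [abs_le] at h5 h6 hq
          constructor <;> linarith [h5.1, h5.2, h6.1, h6.2, hq.1, hq.2]
        have h8 : q = Q := by
          have h9 : |(q:ℤ) - Q| < 1 := by exact_mod_cast h7
          have := Int.abs_lt_one_iff.1 h9
          omega
        rwa [h8] at hq
  intro t hs ht
  have ht0 : 0 < t := hs₀.trans_le hs
  obtain ⟨k, hk⟩ := pow_unbounded_of_one_lt (r / t) (by norm_num : (1:ℝ) < 2)
  refine key k t hs ?_ ht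
  rw [div_le_iff₀ (by positivity)]
  rw [div_lt_iff₀ ht0] at hk
  linarith

/-- cylinder data at the top scale -/
structure Dat (m : ℕ) (Q : ℕ) (δ : ℝ) (T : Submodule ℝ E) (G : Set E) (h : ℝ) (ν : Measure E)
    (P : E → E →L[ℝ] E) (S : Set E) (θ : E → ℕ) (J : E → ℝ) (z : E) (r : ℝ) : Prop where
  int : IntCyl m T G h ν P S θ J
  pos : 0 < r
  sub : ball (T.starProjection z) (4 * r) ⊆ G
  near : |htot m T ν z (2 * r) / cg m - Q| ≤ 1 / 3
  small : exc m T ν P z (4 * r) ≤ δ

lemma X2_le_of_exc {δ : ℝ} (hs : 0 < s) (h : exc m T ν P x s ≤ δ) : X2 T ν P x s ≤ δ * s ^ m := by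
  rwa [exc_eq, div_le_iff₀ (by positivity)] at h

/-- the mass constant at the top scale -/
noncomputable def M0 (m Q : ℕ) : ℝ := 15 * (cg m * (Q + 1)) * 4 ^ m

lemma M0_pos (m Q : ℕ) : 0 < M0 m Q := by
  have := cg_pos m; unfold M0; positivity

/-- the small constant for the transport steps -/
noncomputable def D0 (E : Type*) [NormedAddCommGroup E] [InnerProductSpace ℝ E] (m : ℕ) : ℝ :=
  cg m / (12 * (9 * (Module.finrank ℝ E + 1) * 20 ^ m))

lemma D0_pos (m : ℕ) : 0 < D0 E m := by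
  have := cg_pos m; unfold D0; positivity

lemma le_D0 {δ : ℝ} (hδ : δ ≤ D0 E m) : 9 * Module.finrank ℝ E * 20 ^ m * δ ≤ cg m / 12 := by
  have h1 := cg_pos m
  unfold D0 at hδ
  rw [le_div_iff₀ (by positivity)] at hδ
  rw [le_div_iff₀ (by norm_num)]
  have h2 : (0:ℝ) < 20 ^ m := by positivity
  rcases le_total 0 δ with h0 | h0
  · nlinarith [mul_nonneg (mul_nonneg (by norm_num : (0:ℝ) ≤ 9) h2.le) h0]
  · have : 9 * (Module.finrank ℝ E : ℝ) * 20 ^ m * δ ≤ 0 :=
      mul_nonpos_of_nonneg_of_nonpos (by positivity) h0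
    linarith

section

variable {Q : ℕ} {δ : ℝ}

lemma Dat.X2_top (D : Dat m Q δ T G h ν P S θ J z r) : X2 T ν P z (4 * r) ≤ δ * (4 * r) ^ m :=
  X2_le_of_exc (by have := D.pos; positivity) D.small

lemma Dat.delta_nonneg (D : Dat m Q δ T G h ν P S θ J z r) : 0 ≤ δ := by
  have h1 := D.X2_top
  have h2 : 0 ≤ X2 T ν P z (4 * r) := X2_nonneg
  have h3 : 0 < (4 * r) ^ m := by have := D.pos; positivity
  by_contra hc
  have := mul_neg_of_neg_of_pos (not_le.1 hc) h3
  linarith

/-- mass at the top scale -/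
lemma Dat.mass_top (D : Dat m Q δ T G h ν P S θ J z r) (hδ : δ ≤ D0 E m) :
    ν.real (cyl T z (3 * r)) ≤ M0 m Q * r ^ m := by
  have hfin := D.int.finite
  have hr := D.pos
  have hδ0 := D.delta_nonneg
  have hcg := cg_pos m
  have h1 := htot_scale (z := z) D.int.stat (r₁ := 2 * r) (r₂ := 7 * r / 2) (by positivity)
    (by linarith) ((closedBall_subset_ball (by linarith)).trans D.sub)
  have h2 : X2 T ν P z (7 * r / 2) ≤ δ * (4 * r) ^ m :=
    (X2_mono D.int.stat (cyl_mono (by linarith))).trans D.X2_top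
  have h3 : 5 * Module.finrank ℝ E * X2 T ν P z (7 * r / 2) / (2 * r) ^ (m + 1)
      * (7 * r / 2 - 2 * r) ≤ cg m / 12 := by
    calc 5 * Module.finrank ℝ E * X2 T ν P z (7 * r / 2) / (2 * r) ^ (m + 1)
          * (7 * r / 2 - 2 * r)
        ≤ 5 * Module.finrank ℝ E * (δ * (4 * r) ^ m) / (2 * r) ^ (m + 1)
          * (7 * r / 2 - 2 * r) := by
          have : 0 ≤ 7 * r / 2 - 2 * r := by linarith
          gcongr
      _ = 15 / 4 * Module.finrank ℝ E * 2 ^ m * δ := by
          have h4 : (4 * r) ^ m = 2 ^ m * (2 * r) ^ m := by rw [← mul_pow]; ring_nf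
          rw [h4, pow_succ]
          field_simp
          ring
      _ ≤ 9 * Module.finrank ℝ E * 20 ^ m * δ := by
          have : (2:ℝ) ^ m ≤ 20 ^ m := by gcongr; norm_num
          gcongr
          norm_num
      _ ≤ cg m / 12 := le_D0 hδ
  have h5 := D.near
  have h6 : htot m T ν z (2 * r) ≤ cg m * (Q + 1 / 3) := by
    rw [abs_le] at h5
    have := h5.2
    rw [sub_le_iff_le_add, div_le_iff₀ hcg] at this
    linarith
  have h7 : htot m T ν z (7 * r / 2) ≤ cg m * (Q + 1) := by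
    have := (abs_le.1 (h1.trans h3)).2
    nlinarith
  refine (mass_le_fifteen (m := m) hr).trans ?_
  unfold M0
  have h8 : (7 * r / 2) ^ m ≤ 4 ^ m * r ^ m := by
    rw [← mul_pow]; gcongr; linarith
  calc 15 * (htot m T ν z (7 * r / 2) * (7 * r / 2) ^ m)
      ≤ 15 * ((cg m * (Q + 1)) * (4 ^ m * r ^ m)) := by
        gcongr
    _ = _ := by ring

/-- position of the cylinders over a point of the small ball -/
lemma Dat.cyl_sub (_D : Dat m Q δ T G h ν P S θ J z r)
    (hx : T.starProjection x ∈ ball (T.starProjection z) r) {t : ℝ} (ht : t ≤ 2 * r) :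
    cyl T x t ⊆ cyl T z (3 * r) := by
  refine cyl_subset ?_
  rw [mem_ball] at hx
  linarith

lemma Dat.ball_sub (D : Dat m Q δ T G h ν P S θ J z r)
    (hx : T.starProjection x ∈ ball (T.starProjection z) r) {t : ℝ} (ht : t ≤ 2 * r) :
    closedBall (T.starProjection x) t ⊆ G := by
  refine (closedBall_subset_ball' ?_).trans D.sub
  rw [mem_ball] at hx
  have := D.pos
  linarith

lemma Dat.X2_sub (D : Dat m Q δ T G h ν P S θ J z r)
    (hx : T.starProjection x ∈ ball (T.starProjection z) r) {t : ℝ} (ht : t ≤ 2 * r) :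
    X2 T ν P x t ≤ δ * (4 * r) ^ m := by
  refine (X2_mono D.int.stat ((D.cyl_sub hx ht).trans (cyl_mono ?_))).trans D.X2_top
  have := D.pos
  linarith

end

/-- **Theorem M (i).** -/
theorem multi (hN : ThmN E m) (Q : ℕ) {ε : ℝ} (hε : 0 < ε) : ∃ δ C : ℝ, 0 < δ ∧ 0 < C ∧
    ∀ (T : Submodule ℝ E) (G : Set E) (h : ℝ) (ν : Measure E) (P : E → E →L[ℝ] E) (S : Set E)
      (θ : E → ℕ) (J : E → ℝ) (z : E) (r : ℝ), Dat m Q δ T G h ν P S θ J z r →
      ∀ x : E, T.starProjection x ∈ ball (T.starProjection z) r → ∀ s, 0 < s → s ≤ r →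
      (∀ s', s ≤ s' → s' ≤ r → exc m T ν P x s' ≤ δ) →
      (∀ t, s / 10 ≤ t → t ≤ r → |htot m T ν x t / cg m - Q| ≤ ε) ∧
      (∀ t, s / 20 ≤ t → t ≤ 2 * r → ν.real (cyl T x t) ≤ C * t ^ m) := by
  have hcg := cg_pos m
  set ε₁ : ℝ := min ε (1 / 12) with hε₁
  have hε₁0 : 0 < ε₁ := lt_min hε (by norm_num)
  set M : ℝ := 2 * (cg m * (Q + 1)) * 4 ^ m + M0 m Q * 4 ^ m with hM
  have hM0 := M0_pos m Q
  have hMpos : 0 < M := by positivity
  obtain ⟨δN, hδN, hnear⟩ := hN M ε₁ hMpos hε₁0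
  set δ : ℝ := min (δN / 10 ^ m) (D0 E m) with hδ
  have hδ0 : 0 < δ := lt_min (by positivity) (D0_pos m)
  have hδN' : 10 ^ m * δ ≤ δN := by
    have : δ ≤ δN / 10 ^ m := min_le_left _ _
    rw [le_div_iff₀ (by positivity)] at this
    linarith
  have hδD : δ ≤ D0 E m := min_le_right _ _
  have hδD' := le_D0 (E := E) (m := m) hδD
  refine ⟨δ, 2 ^ m * (2 * (cg m * (Q + 1)) + M0 m Q), hδ0, by positivity, ?_⟩
  intro T G h ν P S θ J z r D x hx s hs hsr hexc
  have hfin := D.int.finite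
  have hr := D.pos
  have hmass := D.mass_top hδD
  have hdist : ‖T.starProjection (x - z)‖ < r := by
    rw [mem_ball, dist_eq_norm, ← map_sub] at hx; exact hx
  -- excess on the whole range
  have E1 : ∀ t, s / 10 ≤ t → t ≤ 2 * r → X2 T ν P x t ≤ 10 ^ m * δ * t ^ m := by
    intro t h1 h2
    have ht0 : 0 < t := by linarith
    rcases le_total r t with h3 | h3
    · refine (D.X2_sub hx h2).trans ?_
      have : (4 * r) ^ m ≤ (10 * t) ^ m := by gcongr; linarith
      rw [mul_pow 10 t] at this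
      calc δ * (4 * r) ^ m ≤ δ * (10 ^ m * t ^ m) := by gcongr
        _ = _ := by ring
    · rcases le_total s t with h4 | h4
      · refine (X2_le_of_exc ht0 (hexc t h4 h3)).trans ?_
        have : (1:ℝ) ≤ 10 ^ m := one_le_pow₀ (by norm_num)
        calc δ * t ^ m = 1 * δ * t ^ m := by ring
          _ ≤ 10 ^ m * δ * t ^ m := by gcongr
      · refine (X2_mono D.int.stat (cyl_mono h4)).trans ?_
        refine (X2_le_of_exc hs (hexc s le_rfl hsr)).trans ?_
        have : s ^ m ≤ (10 * t) ^ m := by gcongr; linarith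
        rw [mul_pow 10 t] at this
        calc δ * s ^ m ≤ δ * (10 ^ m * t ^ m) := by gcongr
          _ = _ := by ring
  -- masses
  have Mass : ∀ t, 0 < t → t ≤ 2 * r → (2 * t ≤ r → htot m T ν x (2 * t) ≤ cg m * (Q + 1)) →
      ν.real (cyl T x t) ≤ 2 ^ m * (2 * (cg m * (Q + 1)) + M0 m Q) * t ^ m := by
    intro t ht0 ht2 hh
    by_cases h1 : 2 * t ≤ r
    · refine (mass_le_two (m := m) ht0).trans ?_
      calc 2 * (htot m T ν x (2 * t) * (2 * t) ^ m)
          ≤ 2 * (cg m * (Q + 1) * (2 * t) ^ m) := by gcongr; exact hh h1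
        _ = 2 ^ m * (2 * (cg m * (Q + 1))) * t ^ m := by rw [mul_pow]; ring
        _ ≤ _ := by gcongr; linarith
    · rw [not_le] at h1
      have h2 : ν.real (cyl T x t) ≤ ν.real (cyl T z (3 * r)) :=
        measureReal_mono (D.cyl_sub hx ht2)
      refine (h2.trans hmass).trans ?_
      have h3 : r ^ m ≤ 2 ^ m * t ^ m := by rw [← mul_pow]; gcongr
      calc M0 m Q * r ^ m ≤ M0 m Q * (2 ^ m * t ^ m) := by gcongr
        _ = 2 ^ m * M0 m Q * t ^ m := by ring
        _ ≤ _ := by
          gcongr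
          have : 0 ≤ cg m * ((Q:ℝ) + 1) := by positivity
          linarith
  have up : ∀ t, |htot m T ν x t / cg m - Q| ≤ ε₁ → htot m T ν x t ≤ cg m * (Q + 1) := by
    intro t ht
    have h1 := (abs_le.1 ht).2
    rw [sub_le_iff_le_add, div_le_iff₀ hcg] at h1
    have h2 : ε₁ ≤ 1 := (min_le_right _ _).trans (by norm_num)
    calc htot m T ν x t ≤ (ε₁ + Q) * cg m := h1
      _ ≤ (1 + Q) * cg m := by gcongr
      _ = _ := by ring
  -- near integrality at `(x, t)`
  have Near : ∀ t, s / 10 ≤ t → t ≤ r → (∀ u, 2 * t ≤ u → u ≤ r →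
      |htot m T ν x u / cg m - Q| ≤ ε₁) → ∃ q : ℕ, |htot m T ν x t / cg m - q| ≤ ε₁ := by
    intro t h1 h2 hu
    have ht0 : 0 < t := by linarith
    refine hnear T G h ν P S θ J D.int x t ht0 ?_ ?_ ?_
    · exact ball_subset_closedBall.trans (D.ball_sub hx (by linarith))
    · refine (Mass (2 * t) (by linarith) (by linarith) (fun h3 => up _ (hu _ (by linarith) h3))).trans ?_
      rw [hM, mul_pow]
      have : (4:ℝ) ^ m = 2 ^ m * 2 ^ m := by rw [← mul_pow]; norm_num
      rw [this]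
      apply le_of_eq; ring
    · rw [exc_eq, div_le_iff₀ (by positivity)]
      refine (E1 (2 * t) (by linarith) (by linarith)).trans ?_
      gcongr
  -- start
  have h0 : |htot m T ν x r / cg m - Q| ≤ 5 / 12 := by
    have e1 := htot_translate (z := z) (z' := x) D.int.stat (r := r) (ρ := 2 * r) hr
      (by linarith) ((closedBall_subset_ball (by linarith)).trans D.sub)
    have e2 := htot_scale (z := z) D.int.stat (r₁ := r) (r₂ := 2 * r) hr
      (by linarith) ((closedBall_subset_ball (by linarith)).trans D.sub)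
    have e3 : X2 T ν P z (2 * r) ≤ δ * (4 * r) ^ m :=
      (X2_mono D.int.stat (cyl_mono (by linarith))).trans D.X2_top
    have e4 : 4 * Module.finrank ℝ E * ‖T.starProjection (x - z)‖ * X2 T ν P z (2 * r)
        / r ^ (m + 1) ≤ 4 * Module.finrank ℝ E * 4 ^ m * δ := by
      have h0 : 0 ≤ X2 T ν P z (2 * r) := X2_nonneg
      calc _ ≤ 4 * Module.finrank ℝ E * r * (δ * (4 * r) ^ m) / r ^ (m + 1) := by
            gcongr
        _ = _ := by rw [pow_succ, mul_pow]; field_simp
    have e5 : 5 * Module.finrank ℝ E * X2 T ν P z (2 * r) / r ^ (m + 1) * (2 * r - r)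
        ≤ 5 * Module.finrank ℝ E * 4 ^ m * δ := by
      calc _ ≤ 5 * Module.finrank ℝ E * (δ * (4 * r) ^ m) / r ^ (m + 1) * (2 * r - r) := by
            have : 0 ≤ 2 * r - r := by linarith
            gcongr
        _ = _ := by rw [pow_succ, mul_pow]; field_simp; ring
    have e6 : 9 * Module.finrank ℝ E * 4 ^ m * δ ≤ cg m / 12 := by
      refine le_trans ?_ hδD'
      gcongr
      norm_num
    have e7 := D.near
    rw [abs_le] at e1 e2 e7 ⊢
    have e8 := e7.1
    have e9 := e7.2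
    rw [le_sub_iff_add_le, le_div_iff₀ hcg] at e8
    rw [sub_le_iff_le_add, div_le_iff₀ hcg] at e9
    constructor
    · rw [le_sub_iff_add_le, le_div_iff₀ hcg]
      nlinarith [e1.1, e1.2, e2.1, e2.2]
    · rw [sub_le_iff_le_add, div_le_iff₀ hcg]
      nlinarith [e1.1, e1.2, e2.1, e2.2]
  have h1 : |htot m T ν x r / cg m - Q| ≤ ε₁ := by
    obtain ⟨q, hq⟩ := Near r (by linarith) le_rfl (fun u hu hur => by linarith)
    have h12 : ε₁ ≤ 1 / 12 := min_le_right _ _
    have h7 : |(q:ℝ) - Q| < 1 := by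
      rw [abs_lt]; rw [abs_le] at h0 hq
      constructor <;> linarith [h0.1, h0.2, hq.1, hq.2]
    have h8 : q = Q := by
      have h9 : |(q:ℤ) - Q| < 1 := by exact_mod_cast h7
      have := Int.abs_lt_one_iff.1 h9
      omega
    rwa [h8] at hq
  have h2 : ∀ t, s / 10 ≤ t → t ≤ r → |htot m T ν x t / cg m - Q| ≤ ε₁ := by
    refine dyadic (f := fun t => htot m T ν x t / cg m) hr (by linarith : 0 < s / 10)
      (min_le_right _ _) h1 ?_ Near
    intro t t' hst ht't htr ht2
    have ht'0 : 0 < t' := by linarith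
    have e1 := htot_scale (z := x) D.int.stat (r₁ := t') (r₂ := t) ht'0 ht't
      (D.ball_sub hx (by linarith))
    have e2 : 5 * Module.finrank ℝ E * X2 T ν P x t / t' ^ (m + 1) * (t - t')
        ≤ cg m / 12 := by
      have e3 := E1 t (by linarith) (by linarith)
      have e4 : t ^ m ≤ 2 ^ m * t' ^ m := by rw [← mul_pow]; gcongr; linarith
      calc _ ≤ 5 * Module.finrank ℝ E * (10 ^ m * δ * (2 ^ m * t' ^ m)) / t' ^ (m + 1) * t' := by
            have h5 : t - t' ≤ t' := by linarith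
            have h6 : 0 ≤ t - t' := by linarith
            gcongr
            exact e3.trans (by gcongr)
        _ = 5 * Module.finrank ℝ E * (10 ^ m * 2 ^ m) * δ := by
            rw [pow_succ]; field_simp
        _ = 5 * Module.finrank ℝ E * 20 ^ m * δ := by
            rw [← mul_pow]; norm_num
        _ ≤ 9 * Module.finrank ℝ E * 20 ^ m * δ := by gcongr; norm_num
        _ ≤ _ := hδD'
    rw [abs_sub_comm, ← sub_div, abs_div, abs_of_pos hcg, div_le_iff₀ hcg]
    refine (e1.trans e2).trans (le_of_eq ?_)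
    ring
  refine ⟨fun t h3 h4 => (h2 t h3 h4).trans (min_le_left _ _), fun t h3 h4 => ?_⟩
  exact Mass t (by linarith) h4 fun h5 => up _ (h2 _ (by linarith) h5)

end Vale.Agent.P214.INTM
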