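import Vale.Agent.P214.INT.I0
import Vale.Agent.P214.INT.I1
import Vale.Agent.P214.INT.Loc
import Vale.Agent.P214.FV.Radial

/-! Transport of the full cylinder mass `∫ hcut` in the scale and in the centre, with errors that
are linear in the excess. -/

open Set Filter Topology MeasureTheory Metric
open scoped RealInnerProductSpace ENNReal

namespace Vale.Agent.P214.INTM

open Vale.Agent.P214 Vale.Agent.P214.FV Vale.Agent.P214.INT

set_option linter.unusedSectionVars false

variable {E : Type*} [NormedAddCommGroup E] [InnerProductSpace ℝ E] [FiniteDimensional ℝ E]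
  [MeasurableSpace E] [BorelSpace E]

variable {T : Submodule ℝ E} {z x y v : E} {r s h : ℝ} {m : ℕ} {G : Set E} {ν : Measure E}
  {P : E → E →L[ℝ] E}

/-- integral of the squared tilt over the cylinder -/
noncomputable def X2 (T : Submodule ℝ E) (ν : Measure E) (P : E → E →L[ℝ] E) (x : E) (s : ℝ) : ℝ :=
  ∫ y in cyl T x s, tilt P T y ^ 2 ∂ν

lemma exc_eq : exc m T ν P x s = X2 T ν P x s / s ^ m := rfl

lemma isOpen_cyl : IsOpen (cyl T x s) := isOpen_ball.preimage T.starProjection.continuous

lemma cyl_mono {r₁ r₂ : ℝ} (hr : r₁ ≤ r₂) : cyl T x r₁ ⊆ cyl T x r₂ :=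
  preimage_mono (ball_subset_ball hr)

lemma cyl_subset (hd : dist (T.starProjection x) (T.starProjection z) + r ≤ s) :
    cyl T x r ⊆ cyl T z s := by
  refine preimage_mono (ball_subset_ball' ?_)
  linarith

lemma mem_cyl : y ∈ cyl T x s ↔ ‖T.starProjection (y - x)‖ < s := by
  unfold cyl
  rw [mem_preimage, mem_ball, dist_eq_norm, map_sub]

lemma X2_nonneg : 0 ≤ X2 T ν P x s := integral_nonneg fun _ => sq_nonneg _

lemma X2_mono (hC : CylStat m T G h ν P) {A B : Set E} (hAB : A ⊆ B) :
    ∫ y in A, tilt P T y ^ 2 ∂ν ≤ ∫ y in B, tilt P T y ^ 2 ∂ν := by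
  have := hC.fin
  have hL := locStat_of_cylStat hC
  exact setIntegral_mono_set (integrable_tilt_sq hL).integrableOn
    (Eventually.of_forall fun y => sq_nonneg _) hAB.eventuallyLE

lemma hs_le (A : E →L[ℝ] E) : hs A ≤ Module.finrank ℝ E * ‖A‖ ^ 2 := by
  unfold hs
  calc ∑ k, ‖A (stdOrthonormalBasis ℝ E k)‖ ^ 2
      ≤ ∑ _k : Fin (Module.finrank ℝ E), ‖A‖ ^ 2 := by
        refine Finset.sum_le_sum fun k _ => ?_
        gcongr
        have := A.le_opNorm (stdOrthonormalBasis ℝ E k)
        rwa [(stdOrthonormalBasis ℝ E).norm_eq_one, mul_one] at this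
    _ = _ := by simp

/-- the trace tilt is at most `dim E` times the squared norm tilt -/
lemma tl_le {S : Submodule ℝ E} (hS : Module.finrank ℝ S = Module.finrank ℝ T) :
    FV.tilt T S.starProjection ≤ Module.finrank ℝ E * ‖S.starProjection - T.starProjection‖ ^ 2 := by
  have h1 := hs_sub S T hS
  have h2 := hs_le (S.starProjection - T.starProjection)
  have h3 := FV.tilt_nonneg S T
  linarith

lemma ae_tl (hC : CylStat m T G h ν P) : ∀ᵐ y ∂ν, 0 ≤ FV.tilt T (P y) ∧
    FV.tilt T (P y) ≤ Module.finrank ℝ E * tilt P T y ^ 2 := by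
  filter_upwards [hC.proj] with y hy
  obtain ⟨S, hS, hP⟩ := hy
  rw [hP]
  refine ⟨FV.tilt_nonneg S T, ?_⟩
  have := tl_le (T := T) (S := S) (by rw [hS, hC.dimT])
  unfold INT.tilt
  rwa [hP]

/-- total cylinder mass at scale `r` -/
noncomputable def Im (T : Submodule ℝ E) (ν : Measure E) (z : E) (r : ℝ) : ℝ :=
  ∫ y, hcut T z r y ∂ν

lemma htot_eq : htot m T ν z r = Im T ν z r / r ^ m := rfl

lemma hasDerivAt_Im [IsFiniteMeasure ν] (hr : 0 < r) :
    HasDerivAt (Im T ν z) (∫ y, dcut (T.starProjection z) r (T.starProjection y)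
      * (2 * ‖T.starProjection (y - z)‖ ^ 2 / r ^ 3) ∂ν) r := by
  have hs : Ioo (r / 2) (2 * r) ∈ 𝓝 r := Ioo_mem_nhds (by linarith) (by linarith)
  have hcd : ∀ r : ℝ, Continuous fun y : E =>
      dcut (T.starProjection z) r (T.starProjection y) := fun r =>
    (continuous_dcut _ _).comp T.starProjection.continuous
  have key := hasDerivAt_integral_of_dominated_loc_of_deriv_le (μ := ν) (𝕜 := ℝ)
    (F := fun r y => hcut T z r y)
    (F' := fun r y => dcut (T.starProjection z) r (T.starProjection y)
        * (2 * ‖T.starProjection (y - z)‖ ^ 2 / r ^ 3)) (x₀ := r)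
    (s := Ioo (r / 2) (2 * r)) (bound := fun _ => 2 * (2 * (2 * r) ^ 2 / (r / 2) ^ 3))
    hs ?_ ?_ ?_ ?_ ?_ ?_
  · exact key.2
  · exact Eventually.of_forall fun s => (contDiff_hcut z s).continuous.aestronglyMeasurable
  · refine (integrable_const (1:ℝ)).mono' (contDiff_hcut z r).continuous.aestronglyMeasurable ?_
    exact Eventually.of_forall fun y => by
      rw [Real.norm_of_nonneg (hcut_nonneg _ _ _)]; exact hcut_le_one _ _ _
  · have h1 := hcd r
    have : Continuous fun y : E => dcut (T.starProjection z) r (T.starProjection y)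
        * (2 * ‖T.starProjection (y - z)‖ ^ 2 / r ^ 3) := by fun_prop
    exact this.aestronglyMeasurable
  · refine Eventually.of_forall fun y s hs => ?_
    have hs0 : 0 < s := by linarith [hs.1]
    by_cases h : s ≤ ‖T.starProjection (y - z)‖
    · rw [dcut_eq_zero hs0 (by rwa [← map_sub])]; simp; positivity
    · have h2 : ‖T.starProjection (y - z)‖ ≤ 2 * r := by linarith [hs.2, not_le.mp h]
      have h3 := dcut_le_two (T.starProjection z) s (T.starProjection y)
      have h4 := dcut_nonneg (T.starProjection z) s (T.starProjection y)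
      rw [norm_mul, Real.norm_of_nonneg h4, Real.norm_of_nonneg (by positivity)]
      have h6 : r / 2 ≤ s := hs.1.le
      gcongr
  · exact integrable_const _
  · refine Eventually.of_forall fun y s hs => ?_
    exact hasDerivAt_hcut_scale (by linarith [hs.1]) y

lemma baseCpt_hcut (hr : 0 < r) (hG : closedBall (T.starProjection z) r ⊆ G) :
    BaseCpt T G (hcut T z r) := by
  refine ⟨closedBall (T.starProjection z) r, isCompact_closedBall _ _, hG, fun y hy => ?_⟩
  refine hcut_eq_zero hr ?_
  rw [mem_closedBall, dist_eq_norm, not_le, ← map_sub] at hy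
  exact hy.le

/-- the defect pairing is bounded by the tilt -/
lemma abs_inner_defect_le {S : Submodule ℝ E} (hS : Module.finrank ℝ S = Module.finrank ℝ T)
    (x v : E) : |⟪T.starProjection x, v⟫ - ⟪T.starProjection x, S.starProjection
      (T.starProjection v)⟫| ≤ FV.tilt T S.starProjection * ‖T.starProjection x‖ * ‖v‖ := by
  have h1 : ⟪T.starProjection x, v⟫ - ⟪T.starProjection x, S.starProjection (T.starProjection v)⟫
      = ⟪co S (T.starProjection x), co S (T.starProjection v)⟫ := by
    have e1 : ⟪T.starProjection x, v⟫ = ⟪T.starProjection x, T.starProjection v⟫ := by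
      rw [← inner_star, star_self]
    rw [e1, inner_co, co_self, co_apply, inner_sub_right]
  have h2 : ∀ u : E, ‖co S (T.starProjection u)‖ ^ 2
      ≤ FV.tilt T S.starProjection * ‖T.starProjection u‖ ^ 2 := fun u => by
    rw [← inner_defect]; exact inner_defect_le S T hS u
  rw [h1]
  refine (abs_real_inner_le_norm _ _).trans ?_
  have h0 := FV.tilt_nonneg S T
  have h3 : ‖co S (T.starProjection x)‖ ≤ √(FV.tilt T S.starProjection) * ‖T.starProjection x‖ := by
    refine abs_le_of_sq_le_sq' ?_ (by positivity) |>.2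
    rw [mul_pow, Real.sq_sqrt h0]; exact h2 x
  have h4 : ‖co S (T.starProjection v)‖ ≤ √(FV.tilt T S.starProjection) * ‖v‖ := by
    refine abs_le_of_sq_le_sq' ?_ (by positivity) |>.2
    rw [mul_pow, Real.sq_sqrt h0]
    refine (h2 v).trans ?_
    gcongr
    exact norm_star_le T v
  calc ‖co S (T.starProjection x)‖ * ‖co S (T.starProjection v)‖
      ≤ (√(FV.tilt T S.starProjection) * ‖T.starProjection x‖) *
        (√(FV.tilt T S.starProjection) * ‖v‖) := by gcongr
    _ = (√(FV.tilt T S.starProjection) * √(FV.tilt T S.starProjection)) *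
        ‖T.starProjection x‖ * ‖v‖ := by ring
    _ = _ := by rw [Real.mul_self_sqrt h0]

lemma dcut_supp (hr : 0 < r) (hy : y ∉ cyl T z r) :
    dcut (T.starProjection z) r (T.starProjection y) = 0 := by
  rw [mem_cyl, not_lt] at hy
  exact dcut_eq_zero hr (by rwa [← map_sub])

lemma hcut_supp (hr : 0 < r) (hy : y ∉ cyl T z r) : hcut T z r y = 0 := by
  rw [mem_cyl, not_lt] at hy
  exact hcut_eq_zero hr hy

/-- the two error integrals are bounded by the excess -/
lemma abs_integral_le_X2 (hC : CylStat m T G h ν P) {A : Set E}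
    {g : E → ℝ} {C : ℝ} (hC0 : 0 ≤ C) (hg : ∀ᵐ y ∂ν, |g y| ≤ C * FV.tilt T (P y))
    (h0 : ∀ y ∉ A, g y = 0) :
    |∫ y, g y ∂ν| ≤ C * Module.finrank ℝ E * ∫ y in A, tilt P T y ^ 2 ∂ν := by
  have := hC.fin
  have hL := locStat_of_cylStat hC
  have h1 : ∫ y, g y ∂ν = ∫ y in A, g y ∂ν := (setIntegral_eq_integral_of_forall_compl_eq_zero
    (fun y hy => h0 y hy)).symm
  rw [h1, ← integral_const_mul]
  rw [← Real.norm_eq_abs]
  refine norm_integral_le_of_norm_le ((integrable_tilt_sq hL).integrableOn.const_mul _) ?_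
  refine ae_restrict_of_ae ?_
  filter_upwards [hg, ae_tl hC] with y hy hy2
  rw [Real.norm_eq_abs]
  calc |g y| ≤ C * FV.tilt T (P y) := hy
    _ ≤ C * (Module.finrank ℝ E * tilt P T y ^ 2) := by gcongr; exact hy2.2
    _ = _ := by ring

/-- **scale derivative** -/
lemma abs_scale_le (hC : CylStat m T G h ν P) (hr : 0 < r)
    (hG : closedBall (T.starProjection z) r ⊆ G) :
    |r * (∫ y, dcut (T.starProjection z) r (T.starProjection y)
      * (2 * ‖T.starProjection (y - z)‖ ^ 2 / r ^ 3) ∂ν) - m * Im T ν z r|
      ≤ 5 * Module.finrank ℝ E * X2 T ν P z r := by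
  have := hC.fin
  have hz : T.starProjection z ∈ T := T.starProjection_apply_mem z
  have hv := hC.virial hz (contDiff_hcut z r) (baseCpt_hcut hr hG)
  have hb : ∀ y, bas T (T.starProjection z) y = T.starProjection (y - z) := fun y => by
    rw [bas, map_sub]
  have hcd : Continuous fun y : E => dcut (T.starProjection z) r (T.starProjection y) :=
    (continuous_dcut _ _).comp T.starProjection.continuous
  -- integrability
  have i1 : Integrable (fun y => dcut (T.starProjection z) r (T.starProjection y)
      * (2 * ‖T.starProjection (y - z)‖ ^ 2 / r ^ 3)) ν := by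
    refine (integrable_const (2 * (2 * r ^ 2 / r ^ 3))).mono' ?_ ?_
    · exact (by fun_prop : Continuous fun y : E =>
        dcut (T.starProjection z) r (T.starProjection y)
          * (2 * ‖T.starProjection (y - z)‖ ^ 2 / r ^ 3)).aestronglyMeasurable
    · refine Eventually.of_forall fun y => ?_
      by_cases hy : y ∈ cyl T z r
      · rw [mem_cyl] at hy
        have h3 := dcut_le_two (T.starProjection z) r (T.starProjection y)
        have h4 := dcut_nonneg (T.starProjection z) r (T.starProjection y)
        rw [norm_mul, Real.norm_of_nonneg h4, Real.norm_of_nonneg (by positivity)]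
        gcongr
      · rw [dcut_supp hr hy]; simp; positivity
  have i2 : Integrable (fun y => hcut T z r y) ν := by
    refine (integrable_const (1:ℝ)).mono' (contDiff_hcut z r).continuous.aestronglyMeasurable ?_
    exact Eventually.of_forall fun y => by
      rw [Real.norm_of_nonneg (hcut_nonneg _ _ _)]; exact hcut_le_one _ _ _
  have i3 : Integrable (fun y => hcut T z r y * tr (T.starProjection.comp (P y))
      + fderiv ℝ (hcut T z r) y (P y (bas T (T.starProjection z) y))) ν := by
    refine Integrable.add ?_ ?_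
    · have h1 := hC.integrable_tr (B := fun y => hcut T z r y • T.starProjection)
        ((contDiff_hcut z r).continuous.smul continuous_const)
        ((baseCpt_hcut hr hG).comp_zero fun y hy => by simp [hy])
      refine h1.congr (Eventually.of_forall fun y => ?_)
      simp only
      rw [ContinuousLinearMap.smul_comp, tr_smul]
    · exact hC.integrable_prod₂ (contDiff_hcut z r) (contDiff_bas (n := 0) T _).continuous
        (baseCpt_hcut hr hG)
  have e1 : r * (∫ y, dcut (T.starProjection z) r (T.starProjection y)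
      * (2 * ‖T.starProjection (y - z)‖ ^ 2 / r ^ 3) ∂ν) - m * Im T ν z r
      = ∫ y, (r * (dcut (T.starProjection z) r (T.starProjection y)
      * (2 * ‖T.starProjection (y - z)‖ ^ 2 / r ^ 3)) - m * hcut T z r y
      + (hcut T z r y * tr (T.starProjection.comp (P y))
      + fderiv ℝ (hcut T z r) y (P y (bas T (T.starProjection z) y)))) ∂ν := by
    have i12 : Integrable (fun y => r * (dcut (T.starProjection z) r (T.starProjection y)
      * (2 * ‖T.starProjection (y - z)‖ ^ 2 / r ^ 3)) - m * hcut T z r y) ν :=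
      (i1.const_mul r).sub (i2.const_mul m)
    rw [integral_add i12 i3, hv, add_zero,
      integral_sub (i1.const_mul r) (i2.const_mul m), integral_const_mul, integral_const_mul]
    rfl
  rw [e1]
  refine abs_integral_le_X2 hC (by norm_num) ?_ ?_
  · filter_upwards [hC.proj] with y hy
    obtain ⟨S, hS, hP⟩ := hy
    by_cases hyc : y ∈ cyl T z r
    · rw [mem_cyl] at hyc
      rw [hb, fderiv_hcut', hP]
      have hST : Module.finrank ℝ S = Module.finrank ℝ T := by rw [hS, hC.dimT]
      have h1 := abs_inner_defect_le hST (y - z) (T.starProjection (y - z))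
      rw [star_self, real_inner_self_eq_norm_sq] at h1
      have h2 : tr (T.starProjection.comp S.starProjection) = m - FV.tilt T S.starProjection := by
        rw [tilt_star, hS]; ring
      have h3 : ⟪T.starProjection (y - z), T.starProjection (S.starProjection
          (T.starProjection (y - z)))⟫ = ⟪T.starProjection (y - z), S.starProjection
          (T.starProjection (y - z))⟫ := by rw [← inner_star, star_self]
      rw [h2, h3]
      have d1 := dcut_le_two (T.starProjection z) r (T.starProjection y)
      have d2 := dcut_nonneg (T.starProjection z) r (T.starProjection y)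
      have d3 := hcut_nonneg (T := T) z r y
      have d4 := hcut_le_one (T := T) z r y
      have t0 := FV.tilt_nonneg S T
      set D := dcut (T.starProjection z) r (T.starProjection y)
      set H := hcut T z r y
      set t := FV.tilt T S.starProjection
      set a := ‖T.starProjection (y - z)‖
      set b := ⟪T.starProjection (y - z), S.starProjection (T.starProjection (y - z))⟫
      have e2 : r * (D * (2 * a ^ 2 / r ^ 3)) - m * H
          + (H * (m - t) + -D * (2 / r ^ 2) * b) = D * (2 / r ^ 2) * (a ^ 2 - b) - H * t := by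
        field_simp; ring
      rw [e2]
      have ha : 0 ≤ a := norm_nonneg _
      have h5 : |D * (2 / r ^ 2) * (a ^ 2 - b)| ≤ 4 * t := by
        rw [abs_mul, abs_of_nonneg (by positivity)]
        calc D * (2 / r ^ 2) * |a ^ 2 - b| ≤ 2 * (2 / r ^ 2) * (t * r * r) := by
              gcongr
              refine h1.trans ?_
              gcongr
          _ = 4 * t := by field_simp; ring
      have h6 : |H * t| ≤ t := by
        rw [abs_of_nonneg (by positivity)]
        exact mul_le_of_le_one_left t0 d4
      calc |D * (2 / r ^ 2) * (a ^ 2 - b) - H * t|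
          ≤ |D * (2 / r ^ 2) * (a ^ 2 - b)| + |H * t| := abs_sub _ _
        _ ≤ 5 * t := by linarith
    · have h1 : ∀ w, fderiv ℝ (hcut T z r) y w = 0 := fun w => by
        rw [fderiv_hcut', dcut_supp hr hyc]; simp
      rw [dcut_supp hr hyc, hcut_supp hr hyc, h1, hP]
      simp only [zero_mul, mul_zero, sub_zero, add_zero, abs_zero]
      have := FV.tilt_nonneg S T
      positivity
  · intro y hyc
    have h1 : ∀ w, fderiv ℝ (hcut T z r) y w = 0 := fun w => by
      rw [fderiv_hcut', dcut_supp hr hyc]; simp
    rw [dcut_supp hr hyc, hcut_supp hr hyc, h1]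
    simp

/-- derivative of `htot` in the scale -/
lemma hasDerivAt_htot (hC : CylStat m T G h ν P) (hr : 0 < r)
    (hG : closedBall (T.starProjection z) r ⊆ G) :
    ∃ d, HasDerivAt (htot m T ν z) d r ∧
      |d| ≤ 5 * Module.finrank ℝ E * X2 T ν P z r / r ^ (m + 1) := by
  have := hC.fin
  have h1 := (hasDerivAt_Im (T := T) (z := z) (ν := ν) hr).div (hasDerivAt_pow m r) (by positivity)
  refine ⟨_, h1, ?_⟩
  have key := abs_scale_le hC hr hG
  set D := ∫ y, dcut (T.starProjection z) r (T.starProjection y)
      * (2 * ‖T.starProjection (y - z)‖ ^ 2 / r ^ 3) ∂ν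
  have e1 : (D * r ^ m - Im T ν z r * (m * r ^ (m - 1))) / (r ^ m) ^ 2
      = (r * D - m * Im T ν z r) / r ^ (m + 1) := by
    rcases Nat.eq_zero_or_pos m with rfl | hm
    · simp; field_simp
    · obtain ⟨k, rfl⟩ : ∃ k, m = k + 1 := ⟨m - 1, by omega⟩
      simp only [Nat.add_sub_cancel]
      have hr' : r ≠ 0 := hr.ne'
      rw [div_eq_div_iff (by positivity) (by positivity)]
      ring
  rw [e1, abs_div, abs_of_pos (by positivity : 0 < r ^ (m + 1))]
  gcongr

/-- **transport in the scale** -/
lemma htot_scale (hC : CylStat m T G h ν P) {r₁ r₂ : ℝ} (h1 : 0 < r₁) (h12 : r₁ ≤ r₂)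
    (hG : closedBall (T.starProjection z) r₂ ⊆ G) :
    |htot m T ν z r₂ - htot m T ν z r₁|
      ≤ 5 * Module.finrank ℝ E * X2 T ν P z r₂ / r₁ ^ (m + 1) * (r₂ - r₁) := by
  have hd : ∀ s ∈ Icc r₁ r₂, ∃ d, HasDerivAt (htot m T ν z) d s ∧
      |d| ≤ 5 * Module.finrank ℝ E * X2 T ν P z r₂ / r₁ ^ (m + 1) := by
    intro s hs
    have hs0 : 0 < s := h1.trans_le hs.1
    obtain ⟨d, hd, hd2⟩ := hasDerivAt_htot hC hs0 ((closedBall_subset_closedBall hs.2).trans hG)
    refine ⟨d, hd, hd2.trans ?_⟩
    have : X2 T ν P z s ≤ X2 T ν P z r₂ := X2_mono hC (cyl_mono hs.2)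
    have := hs.1
    have h0 : 0 ≤ X2 T ν P z r₂ := X2_nonneg
    gcongr
  choose! d hd1 hd2 using hd
  have key := Convex.norm_image_sub_le_of_norm_hasDerivWithin_le (f := htot m T ν z) (f' := d)
    (s := Icc r₁ r₂) (C := 5 * Module.finrank ℝ E * X2 T ν P z r₂ / r₁ ^ (m + 1))
    (fun s hs => (hd1 s hs).hasDerivWithinAt) (fun s hs => by
      rw [Real.norm_eq_abs]; exact hd2 s hs) (convex_Icc _ _) ⟨le_rfl, h12⟩ ⟨h12, le_rfl⟩
  rwa [Real.norm_eq_abs, Real.norm_of_nonneg (by linarith)] at key

lemma hcut_translate (z v y : E) (r t : ℝ) :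
    hcut T (z + t • v) r y = hcut T z r (y - t • v) := by
  rw [hcut_eq, hcut_eq]
  congr 3
  congr 1
  abel_nf

/-- derivative of the cylinder mass in the centre -/
lemma hasDerivAt_Im_translate [IsFiniteMeasure ν] (hr : 0 < r) (v : E) (t : ℝ) :
    HasDerivAt (fun t : ℝ => Im T ν (z + t • v) r)
      (-(∫ y, fderiv ℝ (hcut T (z + t • v) r) y v ∂ν)) t := by
  have hd : ∀ (t : ℝ) (y : E), HasDerivAt (fun t : ℝ => hcut T (z + t • v) r y)
      (-(fderiv ℝ (hcut T (z + t • v) r) y v)) t := by
    intro t y
    have h2 : HasFDerivAt (hcut T z r) (fderiv ℝ (hcut T z r) (y - t • v)) (y - t • v) :=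
      ((contDiff_hcut z r).differentiable (by norm_num) _).hasFDerivAt
    have h3 : HasDerivAt (fun t : ℝ => y - t • v) (-v) t := by
      have := ((hasDerivAt_id t).smul_const v).const_sub y
      simpa using this
    have h4 := h2.comp_hasDerivAt t h3
    have h5 : (fun t : ℝ => hcut T (z + t • v) r y) = hcut T z r ∘ fun t : ℝ => y - t • v := by
      funext t; exact hcut_translate z v y r t
    rw [h5]
    refine h4.congr_deriv ?_
    rw [map_neg]
    congr 1
    rw [fderiv_hcut', fderiv_hcut']
    have h6 : T.starProjection (y - t • v - z) = T.starProjection (y - (z + t • v)) := by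
      congr 1; abel
    have h7 : dcut (T.starProjection z) r (T.starProjection (y - t • v))
        = dcut (T.starProjection (z + t • v)) r (T.starProjection y) := by
      unfold dcut
      rw [← map_sub, ← map_sub, h6]
    rw [h6, h7]
  have key := hasDerivAt_integral_of_dominated_loc_of_deriv_le (μ := ν) (𝕜 := ℝ)
    (F := fun t y => hcut T (z + t • v) r y)
    (F' := fun t y => -(fderiv ℝ (hcut T (z + t • v) r) y v)) (x₀ := t)
    (s := univ) (bound := fun _ => 4 / r * ‖v‖)
    univ_mem ?_ ?_ ?_ ?_ ?_ ?_
  · rw [← integral_neg]; exact key.2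
  · exact Eventually.of_forall fun t => (contDiff_hcut _ r).continuous.aestronglyMeasurable
  · refine (integrable_const (1:ℝ)).mono' (contDiff_hcut _ r).continuous.aestronglyMeasurable ?_
    exact Eventually.of_forall fun y => by
      rw [Real.norm_of_nonneg (hcut_nonneg _ _ _)]; exact hcut_le_one _ _ _
  · have h1 : Continuous (fun y => fderiv ℝ (hcut T (z + t • v) r) y v) :=
      ((contDiff_hcut _ r).continuous_fderiv (by norm_num)).clm_apply continuous_const
    exact h1.neg.aestronglyMeasurable
  · refine Eventually.of_forall fun y t _ => ?_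
    rw [norm_neg, Real.norm_eq_abs]
    exact abs_fderiv_hcut_le (T := T) hr (z + t • v) y v
  · exact integrable_const _
  · exact Eventually.of_forall fun y t _ => hd t y

lemma abs_translate_le (hC : CylStat m T G h ν P) (hr : 0 < r)
    (hG : closedBall (T.starProjection z) r ⊆ G) (hv : v ∈ T) :
    |∫ y, fderiv ℝ (hcut T z r) y v ∂ν| ≤
      4 / r * ‖v‖ * Module.finrank ℝ E * X2 T ν P z r := by
  have := hC.fin
  have hπv : T.starProjection v = v := Submodule.starProjection_eq_self_iff.2 hv
  have h1 := hC.prod (W := fun _ => v) (contDiff_hcut z r) contDiff_const (baseCpt_hcut hr hG)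
  have h2 : ∫ y, fderiv ℝ (hcut T z r) y (P y v) ∂ν = 0 := by
    rw [← h1]
    refine integral_congr_ae (Eventually.of_forall fun y => ?_)
    simp [tr_zero]
  have i2 : Integrable (fun y => fderiv ℝ (hcut T z r) y (P y v)) ν :=
    hC.integrable_prod₂ (W := fun _ => v) (contDiff_hcut z r) continuous_const
      (baseCpt_hcut hr hG)
  have i1 : Integrable (fun y => fderiv ℝ (hcut T z r) y v) ν := by
    have h1 : Continuous (fun y => fderiv ℝ (hcut T z r) y v) :=
      ((contDiff_hcut _ r).continuous_fderiv (by norm_num)).clm_apply continuous_const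
    refine (integrable_const (4 / r * ‖v‖)).mono' h1.aestronglyMeasurable ?_
    exact Eventually.of_forall fun y => by
      rw [Real.norm_eq_abs]; exact abs_fderiv_hcut_le hr z y v
  have e1 : ∫ y, fderiv ℝ (hcut T z r) y v ∂ν
      = ∫ y, (fderiv ℝ (hcut T z r) y v - fderiv ℝ (hcut T z r) y (P y v)) ∂ν := by
    rw [integral_sub i1 i2, h2, sub_zero]
  rw [e1]
  refine abs_integral_le_X2 hC (by positivity) ?_ ?_
  · filter_upwards [hC.proj] with y hy
    obtain ⟨S, hS, hP⟩ := hy
    have t0 := FV.tilt_nonneg S T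
    rw [hP, fderiv_hcut', fderiv_hcut', hπv]
    by_cases hyc : y ∈ cyl T z r
    · rw [mem_cyl] at hyc
      have hST : Module.finrank ℝ S = Module.finrank ℝ T := by rw [hS, hC.dimT]
      have h1 := abs_inner_defect_le hST (y - z) v
      rw [hπv] at h1
      have h3 : ⟪T.starProjection (y - z), T.starProjection (S.starProjection v)⟫
          = ⟪T.starProjection (y - z), S.starProjection v⟫ := by rw [← inner_star, star_self]
      rw [h3]
      have d1 := dcut_le_two (T.starProjection z) r (T.starProjection y)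
      have d2 := dcut_nonneg (T.starProjection z) r (T.starProjection y)
      set D := dcut (T.starProjection z) r (T.starProjection y)
      set t := FV.tilt T S.starProjection
      have e2 : -D * (2 / r ^ 2) * ⟪T.starProjection (y - z), v⟫
          - -D * (2 / r ^ 2) * ⟪T.starProjection (y - z), S.starProjection v⟫
          = -(D * (2 / r ^ 2) * (⟪T.starProjection (y - z), v⟫
            - ⟪T.starProjection (y - z), S.starProjection v⟫)) := by ring
      rw [e2, abs_neg, abs_mul, abs_of_nonneg (by positivity)]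
      calc D * (2 / r ^ 2) * |⟪T.starProjection (y - z), v⟫
            - ⟪T.starProjection (y - z), S.starProjection v⟫|
          ≤ 2 * (2 / r ^ 2) * (t * r * ‖v‖) := by
            gcongr
            refine h1.trans ?_
            gcongr
        _ = 4 / r * ‖v‖ * t := by field_simp; ring
    · rw [dcut_supp hr hyc]
      simp only [neg_zero, zero_mul, sub_zero, abs_zero]
      positivity
  · intro y hyc
    rw [fderiv_hcut', fderiv_hcut', dcut_supp hr hyc]
    simp

/-- **transport in the centre** -/
lemma htot_translate (hC : CylStat m T G h ν P) {z' : E} {ρ : ℝ} (hr : 0 < r)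
    (hρ : ‖T.starProjection (z' - z)‖ + r ≤ ρ)
    (hG : closedBall (T.starProjection z) ρ ⊆ G) :
    |htot m T ν z' r - htot m T ν z r| ≤ 4 * Module.finrank ℝ E
      * ‖T.starProjection (z' - z)‖ * X2 T ν P z ρ / r ^ (m + 1) := by
  have := hC.fin
  set v := T.starProjection (z' - z) with hv
  have hvT : v ∈ T := T.starProjection_apply_mem _
  have hvv : T.starProjection v = v := Submodule.starProjection_eq_self_iff.2 hvT
  have hz' : T.starProjection z' = T.starProjection (z + v) := by
    rw [map_add, hvv, hv, map_sub]; abel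
  have hIz' : Im T ν z' r = Im T ν (z + v) r := by
    unfold Im hcut; rw [hz']
  have hball : ∀ t ∈ Icc (0:ℝ) 1, dist (T.starProjection (z + t • v)) (T.starProjection z) + r
      ≤ ρ := by
    intro t ht
    rw [map_add, map_smul, hvv, dist_eq_norm, add_sub_cancel_left, norm_smul,
      Real.norm_of_nonneg ht.1]
    have : t * ‖v‖ ≤ ‖v‖ := mul_le_of_le_one_left (norm_nonneg _) ht.2
    linarith
  have hb : ∀ t ∈ Icc (0:ℝ) 1, |-(∫ y, fderiv ℝ (hcut T (z + t • v) r) y v ∂ν)| ≤
      4 / r * ‖v‖ * Module.finrank ℝ E * X2 T ν P z ρ := by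
    intro t ht
    rw [abs_neg]
    refine (abs_translate_le hC hr ((closedBall_subset_closedBall' (by
      rw [add_comm]; exact hball t ht)).trans hG) hvT).trans ?_
    have : X2 T ν P (z + t • v) r ≤ X2 T ν P z ρ := X2_mono hC (cyl_subset (hball t ht))
    gcongr
  have key := (convex_Icc (0:ℝ) 1).norm_image_sub_le_of_norm_hasDerivWithin_le
    (f := fun t : ℝ => Im T ν (z + t • v) r)
    (f' := fun t : ℝ => -(∫ y, fderiv ℝ (hcut T (z + t • v) r) y v ∂ν))
    (C := 4 / r * ‖v‖ * Module.finrank ℝ E * X2 T ν P z ρ) (x := 0) (y := 1)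
    (fun t _ => (hasDerivAt_Im_translate hr v t).hasDerivWithinAt) (fun t ht => by
      rw [Real.norm_eq_abs]; exact hb t ht) ⟨le_rfl, zero_le_one⟩ ⟨zero_le_one, le_rfl⟩
  simp only [zero_smul, one_smul, add_zero, sub_zero, norm_one, mul_one] at key
  rw [Real.norm_eq_abs, ← hIz'] at key
  rw [htot_eq, htot_eq, ← sub_div, abs_div, abs_of_pos (by positivity : 0 < r ^ m),
    div_le_iff₀ (by positivity)]
  refine key.trans (le_of_eq ?_)
  rw [pow_succ]
  field_simp

end Vale.Agent.P214.INTM
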