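import Vale.Agent.P214.INTM.M3

/-! Theorem M of INT, part (ii): exactly `Q` sheets over almost every good base point. -/

open Set Filter Topology MeasureTheory Metric
open scoped RealInnerProductSpace ENNReal

namespace Vale.Agent.P214.INTM

open Vale.Agent.P214 Vale.Agent.P214.FV Vale.Agent.P214.INT

set_option linter.unusedSectionVars false

/-- black box T: the number of sheets over a good base point is at most the mass fraction -/
def ThmT (E : Type*) [NormedAddCommGroup E] [InnerProductSpace ℝ E] [FiniteDimensional ℝ E]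
    [MeasurableSpace E] [BorelSpace E] (m : ℕ) : Prop :=
  ∀ M ε : ℝ, 0 ≤ M → 0 < ε → ∃ δ : ℝ, 0 < δ ∧
    ∀ (T : Submodule ℝ E) (G : Set E) (h : ℝ) (ν : Measure E) (P : E → E →L[ℝ] E) (S : Set E)
      (θ : E → ℕ) (J : E → ℝ), IntCyl m T G h ν P S θ J → ∀ (z : E) (r : ℝ), 0 < r →
      ball (T.starProjection z) (2 * r) ⊆ G → ν.real (cyl T z (2 * r)) ≤ M * r ^ m →
      (∀ s, 0 < s → s ≤ 2 * r → exc m T ν P z s ≤ δ) →
      sheets T S θ univ (T.starProjection z) ≤ ENNReal.ofReal (htot m T ν z r / cg m + ε)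

variable {E : Type*} [NormedAddCommGroup E] [InnerProductSpace ℝ E] [FiniteDimensional ℝ E]
  [MeasurableSpace E] [BorelSpace E]

variable {T : Submodule ℝ E} {z x y v : E} {r s h : ℝ} {m : ℕ} {G : Set E} {ν : Measure E}
  {P : E → E →L[ℝ] E} {S : Set E} {θ : E → ℕ} {J : E → ℝ}

/-! ### integrality -/

lemma sheets_le_nat {B : Set E} {q : ℕ} (h : sheets T S θ B x ≤ ENNReal.ofReal (q + 1 / 2)) :
    sheets T S θ B x ≤ q := by
  have h0 := h
  unfold sheets at h ⊢
  rw [ENNReal.tsum_eq_iSup_sum]
  refine iSup_le fun F => ?_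
  have h1 := (ENNReal.sum_le_tsum F).trans h
  rw [← Nat.cast_sum] at h1 ⊢
  rw [Nat.cast_le]
  rw [← ENNReal.ofReal_natCast, ENNReal.ofReal_le_ofReal_iff (by positivity)] at h1
  have h2 : ((∑ i ∈ F, θ (i : E) : ℕ) : ℝ) < q + 1 := by linarith
  have : (∑ i ∈ F, θ (i : E)) < q + 1 := by exact_mod_cast h2
  omega

lemma nat_le_sheets {B : Set E} {q : ℕ} (h : (q : ℝ) - 1 / 2 ≤ (sheets T S θ B x).toReal) :
    (q : ℝ≥0∞) ≤ sheets T S θ B x := by
  by_contra hc
  rw [not_le] at hc
  rcases Nat.eq_zero_or_pos q with rfl | hq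
  · simp at hc
  have h1 : sheets T S θ B x ≤ ((q - 1 : ℕ) : ℝ≥0∞) := by
    unfold sheets at hc ⊢
    rw [ENNReal.tsum_eq_iSup_sum] at hc ⊢
    refine iSup_le fun F => ?_
    have h2 := (le_iSup (fun F : Finset {y : E // y ∈ S ∧ y ∈ B ∧ T.starProjection y = x} =>
      ∑ i ∈ F, ((θ (i : E) : ℕ) : ℝ≥0∞)) F).trans_lt hc
    rw [← Nat.cast_sum] at h2 ⊢
    rw [Nat.cast_lt] at h2
    rw [Nat.cast_le]
    omega
  have h3 := ENNReal.toReal_mono (ENNReal.natCast_ne_top _) h1
  rw [ENNReal.toReal_natCast] at h3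
  have h4 : ((q - 1 : ℕ) : ℝ) = q - 1 := by rw [Nat.cast_sub hq]; simp
  rw [h4] at h3
  linarith

/-! ### the plane measure -/

lemma lam_lf (hT : Module.finrank ℝ T = m) :
    IsLocallyFiniteMeasure (μH[m].restrict (T : Set E)) := by
  refine ⟨fun x => ⟨closedBall x 1, closedBall_mem_nhds x one_pos, ?_⟩⟩
  have hTm : MeasurableSet (T : Set E) := T.closed_of_finiteDimensional.measurableSet
  have h1 : (μH[m].restrict (T : Set E)) (closedBall x 1)
      ≤ (μH[m].restrict (T : Set E)) (closedBall (T.starProjection x) 1) := by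
    rw [Measure.restrict_apply' hTm, Measure.restrict_apply' hTm]
    refine measure_mono ?_
    rintro y ⟨hy, hyT⟩
    refine ⟨?_, hyT⟩
    rw [mem_closedBall, dist_eq_norm] at hy ⊢
    have : T.starProjection y = y := Submodule.starProjection_eq_self_iff.2 hyT
    rw [← this, ← map_sub]
    exact (norm_star_le T _).trans hy
  refine h1.trans_lt ((lam_closedBall_le hT (T.starProjection_apply_mem x) one_pos).trans_lt ?_)
  exact ENNReal.ofReal_lt_top

/-! ### the number of sheets as an integrable function -/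

/-- number of sheets, real valued -/
noncomputable def Nf (T : Submodule ℝ E) (S : Set E) (θ : E → ℕ) (x : E) : ℝ :=
  (sheets T S θ univ x).toReal

lemma lintegral_N (hI : IntCyl m T G h ν P S θ J) :
    ∫⁻ x in (T : Set E), sheets T S θ univ x ∂μH[m] = ∫⁻ y, ENNReal.ofReal (J y) ∂ν := by
  have := hI.area univ MeasurableSet.univ (fun _ => 1) measurable_const
  simpa using this.symm

lemma lintegral_J_le (hI : IntCyl m T G h ν P S θ J) :
    ∫⁻ y, ENNReal.ofReal (J y) ∂ν ≤ ν univ := by
  have h1 : ∫⁻ y, ENNReal.ofReal (J y) ∂ν ≤ ∫⁻ _, 1 ∂ν := by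
    refine lintegral_mono_ae ?_
    filter_upwards [hI.J_le] with y hy
    exact ENNReal.ofReal_le_one.2 hy
  simpa using h1

lemma lintegral_N_ne_top (hI : IntCyl m T G h ν P S θ J) :
    ∫⁻ x in (T : Set E), sheets T S θ univ x ∂μH[m] ≠ ⊤ := by
  have := hI.finite
  rw [lintegral_N hI]
  exact ((lintegral_J_le hI).trans_lt (measure_lt_top ν _)).ne

lemma integrable_Nf (hI : IntCyl m T G h ν P S θ J) :
    Integrable (Nf T S θ) (μH[m].restrict (T : Set E)) :=
  integrable_toReal_of_lintegral_ne_top (hI.measN univ MeasurableSet.univ) (lintegral_N_ne_top hI)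

lemma ae_N_lt_top (hI : IntCyl m T G h ν P S θ J) :
    ∀ᵐ x ∂(μH[m].restrict (T : Set E)), sheets T S θ univ x < ⊤ :=
  ae_lt_top' (hI.measN univ MeasurableSet.univ) (lintegral_N_ne_top hI)

lemma Nf_nonneg : 0 ≤ Nf T S θ x := ENNReal.toReal_nonneg

/-- area formula as an identity of measures -/
lemma map_eq (hI : IntCyl m T G h ν P S θ J) :
    (ν.withDensity fun y => ENNReal.ofReal (J y)).map T.starProjection
      = (μH[m].restrict (T : Set E)).withDensity (sheets T S θ univ) := by
  have hmeas : Measurable T.starProjection := T.starProjection.continuous.measurable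
  ext A hA
  rw [Measure.map_apply hmeas hA, withDensity_apply _ (hmeas hA), withDensity_apply _ hA]
  have := hI.area univ MeasurableSet.univ (A.indicator fun _ => 1) (measurable_const.indicator hA)
  rw [Measure.restrict_univ] at this
  rw [← lintegral_indicator (hmeas hA), ← lintegral_indicator hA]
  calc ∫⁻ y, (T.starProjection ⁻¹' A).indicator (fun y => ENNReal.ofReal (J y)) y ∂ν
      = ∫⁻ y, A.indicator (fun _ => 1) (T.starProjection y) * ENNReal.ofReal (J y) ∂ν := by
        refine lintegral_congr fun y => ?_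
        by_cases hy : T.starProjection y ∈ A
        · rw [indicator_of_mem hy, indicator_of_mem (by exact hy), one_mul]
        · rw [indicator_of_notMem hy, indicator_of_notMem (by exact hy), zero_mul]
    _ = _ := this
    _ = _ := by
        refine lintegral_congr fun y => ?_
        by_cases hy : y ∈ A
        · rw [indicator_of_mem hy, indicator_of_mem hy, one_mul]
        · rw [indicator_of_notMem hy, indicator_of_notMem hy, zero_mul]

/-- **area formula for real functions** -/
lemma area_int (hI : IntCyl m T G h ν P S θ J) {φ : E → ℝ} (hφ : Measurable φ) :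
    ∫ y, φ (T.starProjection y) * J y ∂ν = ∫ x in (T : Set E), φ x * Nf T S θ x ∂μH[m] := by
  have hmeas : Measurable T.starProjection := T.starProjection.continuous.measurable
  have h1 : ∫ x, φ x ∂((ν.withDensity fun y => ENNReal.ofReal (J y)).map T.starProjection)
      = ∫ y, φ (T.starProjection y) * J y ∂ν := by
    rw [integral_map hmeas.aemeasurable hφ.aestronglyMeasurable,
      integral_withDensity_eq_integral_toReal_smul₀ hI.measJ.ennreal_ofReal
        (Eventually.of_forall fun y => ENNReal.ofReal_lt_top)]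
    refine integral_congr_ae ?_
    filter_upwards [hI.J_nonneg] with y hy
    rw [ENNReal.toReal_ofReal hy, smul_eq_mul, mul_comm]
  rw [← h1, map_eq hI, integral_withDensity_eq_integral_toReal_smul₀
    (hI.measN univ MeasurableSet.univ) (ae_N_lt_top hI)]
  refine integral_congr_ae (Eventually.of_forall fun x => ?_)
  simp only [smul_eq_mul, Nf]
  ring

/-! ### lower bound -/

/-- the cut-off average of the number of sheets -/
lemma htot_le_avg (hI : IntCyl m T G h ν P S θ J) (hs : 0 < s) :
    htot m T ν x s * s ^ m ≤ ∫ x' in (T : Set E), cut (T.starProjection x) s x' * Nf T S θ x' ∂μH[m]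
      + m * X2 T ν P x s := by
  have hfin := hI.finite
  have h1 : htot m T ν x s * s ^ m = ∫ y, hcut T x s y ∂ν := by
    rw [htot_eq]; unfold Im; field_simp
  have hJm : AEStronglyMeasurable J ν := hI.measJ.aestronglyMeasurable
  have hintJ : Integrable (fun y => hcut T x s y * J y) ν := by
    refine (integrable_const (1:ℝ)).mono'
      ((contDiff_hcut x s).continuous.aestronglyMeasurable.mul hJm) ?_
    filter_upwards [hI.J_nonneg, hI.J_le] with y h0 h1
    rw [norm_mul, Real.norm_of_nonneg (hcut_nonneg _ _ _), Real.norm_of_nonneg h0]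
    exact mul_le_one₀ (hcut_le_one _ _ _) h0 h1
  have htint := integrable_tilt_sq (T := T) hI.loc
  have h2 : ∫ y, hcut T x s y ∂ν ≤ ∫ y, hcut T x s y * J y ∂ν + m * X2 T ν P x s := by
    unfold X2
    rw [← integral_const_mul, ← integral_indicator isOpen_cyl.measurableSet,
      ← integral_add hintJ ((htint.const_mul _).indicator isOpen_cyl.measurableSet)]
    refine integral_mono_ae (integrable_hcut x s)
      (hintJ.add ((htint.const_mul _).indicator isOpen_cyl.measurableSet)) ?_
    filter_upwards [hI.J_ge, hI.J_le] with y h0 hle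
    by_cases hy : y ∈ cyl T x s
    · rw [indicator_of_mem hy]
      have h2 := hcut_le_one (T := T) x s y
      have h3 := hcut_nonneg (T := T) x s y
      have h4 : 0 ≤ 1 - J y := by linarith
      nlinarith
    · rw [indicator_of_notMem hy, hcut_supp hs hy]
      simp
  have h3 := area_int hI (φ := cut (T.starProjection x) s) (continuous_cut _ s).measurable
  rw [h1]
  refine h2.trans (le_of_eq ?_)
  rw [← h3]
  rfl

/-- Lebesgue points -/
lemma ae_leb (hI : IntCyl m T G h ν P S θ J) :
    ∀ᵐ x ∂(μH[m].restrict (T : Set E)), Tendsto (fun s => ⨍ y in closedBall x s,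
      ‖Nf T S θ y - Nf T S θ x‖ ∂(μH[m].restrict (T : Set E))) (𝓝[>] 0) (𝓝 0) := by
  have := lam_lf (T := T) hI.stat.dimT
  have h1 := (Besicovitch.vitaliFamily (μH[m].restrict (T : Set E))).ae_tendsto_average_norm_sub
    (integrable_Nf hI).locallyIntegrable
  filter_upwards [h1] with x hx
  exact hx.comp (Besicovitch.tendsto_filterAt _ x)

lemma cut_avg_le (hI : IntCyl m T G h ν P S θ J) (hx : x ∈ T) (hs : 0 < s) :
    ∫ x' in (T : Set E), cut x s x' * Nf T S θ x' ∂μH[m] ≤ Nf T S θ x * (cg m * s ^ m)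
      + 2 * cg m * (2 * s) ^ m * ⨍ y in closedBall x s,
      ‖Nf T S θ y - Nf T S θ x‖ ∂(μH[m].restrict (T : Set E)) := by
  have hcg := cg_pos m
  have := lam_lf (T := T) hI.stat.dimT
  set lam : Measure E := μH[m].restrict (T : Set E) with hlam
  have hNi := integrable_Nf hI
  have hb := lam_closedBall_le hI.stat.dimT hx hs
  have hbf : lam (closedBall x s) ≠ ⊤ := (hb.trans_lt ENNReal.ofReal_lt_top).ne
  have hbr : lam.real (closedBall x s) ≤ 2 * cg m * (2 * s) ^ m :=
    ENNReal.toReal_le_of_le_ofReal (by positivity) hb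
  have hcuti : Integrable (fun y => cut x s y) lam := by
    by_contra hc
    have h1 := integral_undef hc
    rw [hlam, integral_cut_plane hI.stat.dimT hx hs] at h1
    have : 0 < cg m * s ^ m := by positivity
    linarith
  have hsub : IntegrableOn (fun y => ‖Nf T S θ y - Nf T S θ x‖) (closedBall x s) lam :=
    (hNi.integrableOn.sub (integrableOn_const hbf)).norm
  have hcN : Integrable (fun y => cut x s y * Nf T S θ y) lam := by
    refine hNi.mono ((continuous_cut x s).aestronglyMeasurable.mul hNi.aestronglyMeasurable) ?_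
    refine Eventually.of_forall fun y => ?_
    rw [norm_mul, Real.norm_of_nonneg (cut_nonneg _ _ _)]
    exact mul_le_of_le_one_left (norm_nonneg _) (cut_le_one _ _ _)
  have h1 : ∫ y, cut x s y * Nf T S θ y ∂lam ≤ ∫ y, (Nf T S θ x * cut x s y
      + (closedBall x s).indicator (fun y => ‖Nf T S θ y - Nf T S θ x‖) y) ∂lam := by
    refine integral_mono hcN ((hcuti.const_mul _).add
      (hsub.integrable_indicator measurableSet_closedBall)) fun y => ?_
    simp only
    by_cases hy : y ∈ closedBall x s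
    · rw [indicator_of_mem hy]
      have h2 := cut_le_one x s y
      have h3 := cut_nonneg x s y
      have h4 : Nf T S θ y - Nf T S θ x ≤ ‖Nf T S θ y - Nf T S θ x‖ := Real.le_norm_self _
      have h5 := norm_nonneg (Nf T S θ y - Nf T S θ x)
      have h6 : cut x s y * (Nf T S θ y - Nf T S θ x) ≤ ‖Nf T S θ y - Nf T S θ x‖ := by
        calc _ ≤ cut x s y * ‖Nf T S θ y - Nf T S θ x‖ := by gcongr
          _ ≤ 1 * ‖Nf T S θ y - Nf T S θ x‖ := by gcongr
          _ = _ := one_mul _
      linarith
    · rw [indicator_of_notMem hy, cut_eq_zero hs]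
      · simp
      · rw [mem_closedBall, dist_eq_norm, not_le] at hy; exact hy.le
  have h2 : ∫ y, (Nf T S θ x * cut x s y
      + (closedBall x s).indicator (fun y => ‖Nf T S θ y - Nf T S θ x‖) y) ∂lam
      = Nf T S θ x * (cg m * s ^ m) + ∫ y in closedBall x s, ‖Nf T S θ y - Nf T S θ x‖ ∂lam := by
    rw [integral_add (hcuti.const_mul _) (hsub.integrable_indicator measurableSet_closedBall),
      integral_const_mul, integral_indicator measurableSet_closedBall]
    rw [hlam, integral_cut_plane hI.stat.dimT hx hs]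
  have h3 : ∫ y in closedBall x s, ‖Nf T S θ y - Nf T S θ x‖ ∂lam
      = lam.real (closedBall x s) * ⨍ y in closedBall x s, ‖Nf T S θ y - Nf T S θ x‖ ∂lam := by
    have := measure_smul_setAverage (fun y => ‖Nf T S θ y - Nf T S θ x‖) hbf
    rw [smul_eq_mul] at this
    exact this.symm
  rw [h2, h3] at h1
  refine h1.trans ?_
  have h4 : 0 ≤ ⨍ y in closedBall x s, ‖Nf T S θ y - Nf T S θ x‖ ∂lam := by
    rw [setAverage_eq]
    refine smul_nonneg (by positivity) (integral_nonneg fun y => norm_nonneg _)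
  gcongr

/-- **lower bound for the number of sheets at good points** -/
lemma nat_le_sheets_ae (hI : IntCyl m T G h ν P S θ J) {Q : ℕ} {ε τ : ℝ}
    (hε : ε + m * τ / cg m ≤ 1 / 4) :
    ∀ᵐ x ∂(μH[m].restrict (T : Set E)), x ∈ T →
      (∃ r > 0, ∀ s, 0 < s → s ≤ r → (Q : ℝ) - ε ≤ htot m T ν x s / cg m ∧
        exc m T ν P x s ≤ τ) → (Q : ℝ≥0∞) ≤ sheets T S θ univ x := by
  have hcg := cg_pos m
  filter_upwards [ae_leb hI] with x hx hxT ⟨r, hr, hgood⟩
  refine nat_le_sheets ?_
  change (Q : ℝ) - 1 / 2 ≤ Nf T S θ x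
  by_contra hc
  rw [not_le] at hc
  -- choose a scale with small average
  set a : ℝ := 1 / (8 * 2 ^ m) with ha
  have ha0 : 0 < a := by positivity
  have h1 := (hx.eventually (gt_mem_nhds ha0)).and
    (Ioc_mem_nhdsGT hr : Ioc (0:ℝ) r ∈ 𝓝[>] 0)
  obtain ⟨s, hs1, hs0, hsr⟩ := h1.exists
  have h2 := hgood s hs0 hsr
  have h3 := htot_le_avg (x := x) hI hs0
  have hπ : T.starProjection x = x := Submodule.starProjection_eq_self_iff.2 hxT
  rw [hπ] at h3
  have h4 := cut_avg_le hI hxT hs0
  have h5 := X2_le_of_exc hs0 h2.2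
  have hsm : 0 < s ^ m := by positivity
  have h6 : (Q - ε) * cg m * s ^ m ≤ htot m T ν x s * s ^ m := by
    have := h2.1
    rw [le_div_iff₀ hcg] at this
    gcongr
  have h7 : 2 * cg m * (2 * s) ^ m * (⨍ y in closedBall x s,
      ‖Nf T S θ y - Nf T S θ x‖ ∂(μH[m].restrict (T : Set E))) < cg m * s ^ m / 4 := by
    calc _ < 2 * cg m * (2 * s) ^ m * a := by gcongr
      _ = cg m * s ^ m / 4 := by rw [ha, mul_pow]; field_simp; ring
  have h8 : (m : ℝ) * X2 T ν P x s ≤ m * τ * s ^ m := by
    calc (m : ℝ) * X2 T ν P x s ≤ m * (τ * s ^ m) := by gcongr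
      _ = _ := by ring
  have h9 : (m : ℝ) * τ ≤ (1 / 4 - ε) * cg m := by
    have : m * τ / cg m ≤ 1 / 4 - ε := by linarith
    rwa [div_le_iff₀ hcg] at this
  have h10 : (m : ℝ) * τ * s ^ m ≤ (1 / 4 - ε) * cg m * s ^ m := by gcongr
  have h11 : Nf T S θ x * (cg m * s ^ m) < (Q - 1 / 2) * (cg m * s ^ m) := by gcongr
  nlinarith

end Vale.Agent.P214.INTM
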