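import Vale.Agent.P214.INTM.M2
import Vale.Agent.P214.INT.CutPlane
import Vale.Agent.P214.BES.Basic

/-! Theorem M of INT, part (iii): the bad set in the base is small. -/

open Set Filter Topology MeasureTheory Metric
open scoped RealInnerProductSpace ENNReal

namespace Vale.Agent.P214.INTM

open Vale.Agent.P214 Vale.Agent.P214.FV Vale.Agent.P214.INT

set_option linter.unusedSectionVars false

variable {E : Type*} [NormedAddCommGroup E] [InnerProductSpace ℝ E] [FiniteDimensional ℝ E]
  [MeasurableSpace E] [BorelSpace E]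

variable {T : Submodule ℝ E} {z x y v : E} {r s h : ℝ} {m : ℕ} {G : Set E} {ν : Measure E}
  {P : E → E →L[ℝ] E} {S : Set E} {θ : E → ℕ} {J : E → ℝ}

/-- the conclusion of theorem M (i) for given data -/
def Multi (m Q : ℕ) (ε δ C : ℝ) (T : Submodule ℝ E) (ν : Measure E) (P : E → E →L[ℝ] E) (z : E)
    (r : ℝ) : Prop :=
  ν.real (cyl T z (3 * r)) ≤ C * r ^ m ∧
  ∀ x : E, T.starProjection x ∈ ball (T.starProjection z) r → ∀ s, 0 < s → s ≤ r →
      (∀ s', s ≤ s' → s' ≤ r → exc m T ν P x s' ≤ δ) →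
      (∀ t, s / 10 ≤ t → t ≤ r → |htot m T ν x t / cg m - Q| ≤ ε) ∧
      (∀ t, s / 20 ≤ t → t ≤ 2 * r → ν.real (cyl T x t) ≤ C * t ^ m)

/-- good base points -/
def good (m : ℕ) (τ : ℝ) (T : Submodule ℝ E) (ν : Measure E) (P : E → E →L[ℝ] E) (z : E)
    (r : ℝ) : Set E :=
  {x | x ∈ T ∧ x ∈ ball (T.starProjection z) r ∧ ∀ s, 0 < s → s ≤ r → exc m T ν P x s ≤ τ}

/-- bad base points -/
def bad (m : ℕ) (τ : ℝ) (T : Submodule ℝ E) (ν : Measure E) (P : E → E →L[ℝ] E) (z : E)
    (r : ℝ) : Set E :=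
  {x | x ∈ T ∧ x ∈ ball (T.starProjection z) r ∧ ∃ s, 0 < s ∧ s ≤ r ∧ τ < exc m T ν P x s}

lemma good_or_bad {τ : ℝ} (hx : x ∈ T) (hxz : x ∈ ball (T.starProjection z) r) :
    x ∈ good m τ T ν P z r ∨ x ∈ bad m τ T ν P z r := by
  by_cases hb : ∃ s, 0 < s ∧ s ≤ r ∧ τ < exc m T ν P x s
  · exact Or.inr ⟨hx, hxz, hb⟩
  · push Not at hb
    exact Or.inl ⟨hx, hxz, fun s h1 h2 => hb s h1 h2⟩

/-- volume of balls in the plane -/
lemma lam_closedBall_le (hT : Module.finrank ℝ T = m) (hx : x ∈ T) (hs : 0 < s) :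
    (μH[m].restrict (T : Set E)) (closedBall x s) ≤ ENNReal.ofReal (2 * cg m * (2 * s) ^ m) := by
  have h1 := lintegral_cut_plane (E := E) hT hx (by positivity : 0 < 2 * s)
  have hcg := cg_pos m
  have h2 : ENNReal.ofReal (1 / 2) * (μH[m].restrict (T : Set E)) (closedBall x s)
      ≤ ENNReal.ofReal (cg m * (2 * s) ^ m) := by
    rw [← h1, ← lintegral_indicator_const measurableSet_closedBall]
    refine lintegral_mono fun y => ?_
    by_cases hy : y ∈ closedBall x s
    · rw [indicator_of_mem hy]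
      refine ENNReal.ofReal_le_ofReal ?_
      rw [mem_closedBall, dist_eq_norm] at hy
      have := cut_ge (x := x) (y := y) (r := 2 * s) (by positivity) (by linarith)
      linarith
    · rw [indicator_of_notMem hy]; exact zero_le
  have h3 : (μH[m].restrict (T : Set E)) (closedBall x s)
      = ENNReal.ofReal 2 * (ENNReal.ofReal (1 / 2) *
        (μH[m].restrict (T : Set E)) (closedBall x s)) := by
    rw [← mul_assoc, ← ENNReal.ofReal_mul (by norm_num)]
    norm_num
  rw [h3]
  calc _ ≤ ENNReal.ofReal 2 * ENNReal.ofReal (cg m * (2 * s) ^ m) := by gcongr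
    _ = _ := by rw [← ENNReal.ofReal_mul (by norm_num)]; congr 1; ring

/-- a bad scale with controlled mass -/
lemma exists_scale {Q : ℕ} {ε δ C τ : ℝ} (D : Dat m Q δ T G h ν P S θ J z r)
    (hM : Multi m Q ε δ C T ν P z r) (hC : 0 ≤ C) (hτ : τ ≤ δ) (hx : x ∈ bad m τ T ν P z r) :
    ∃ t, 0 < t ∧ t ≤ r ∧ τ < exc m T ν P x t ∧ ν.real (cyl T x (2 * t)) ≤ 2 ^ m * C * t ^ m := by
  have hfin := D.int.finite
  obtain ⟨hxT, hxz, s, hs, hsr, hex⟩ := hx
  have hr := D.pos
  have hπ : T.starProjection x = x := Submodule.starProjection_eq_self_iff.2 hxT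
  have hxz' : T.starProjection x ∈ ball (T.starProjection z) r := by rwa [hπ]
  set A : Set ℝ := {s | 0 < s ∧ s ≤ r ∧ τ < exc m T ν P x s} with hA
  have hAne : A.Nonempty := ⟨s, hs, hsr, hex⟩
  have hAbdd : BddAbove A := ⟨r, fun t ht => ht.2.1⟩
  set σ := sSup A with hσ
  have hσ0 : 0 < σ := hs.trans_le (le_csSup hAbdd ⟨hs, hsr, hex⟩)
  obtain ⟨t, htA, htσ⟩ := exists_lt_of_lt_csSup hAne (by linarith : σ / 2 < σ)
  obtain ⟨ht0, htr, htex⟩ := htA
  refine ⟨t, ht0, htr, htex, ?_⟩
  by_cases h2 : r ≤ 2 * t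
  · have h3 : cyl T x (2 * t) ⊆ cyl T z (3 * r) := D.cyl_sub hxz' (by linarith)
    refine (measureReal_mono h3).trans (hM.1.trans ?_)
    have : r ^ m ≤ 2 ^ m * t ^ m := by rw [← mul_pow]; gcongr
    calc C * r ^ m ≤ C * (2 ^ m * t ^ m) := by gcongr
      _ = _ := by ring
  · rw [not_le] at h2
    have h4 : ∀ s', 2 * t ≤ s' → s' ≤ r → exc m T ν P x s' ≤ δ := by
      intro s' h5 h6
      by_contra hc
      rw [not_le] at hc
      have : s' ∈ A := ⟨by linarith, h6, hτ.trans_lt hc⟩
      have := le_csSup hAbdd this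
      linarith
    have := (hM.2 x hxz' (2 * t) (by linarith) h2.le h4).2 (2 * t) (by linarith) (by linarith)
    refine this.trans (le_of_eq ?_)
    rw [mul_pow]; ring

/-- the constant of the bad set estimate -/
noncomputable def CB (E : Type*) [NormedAddCommGroup E] [InnerProductSpace ℝ E]
    [FiniteDimensional ℝ E] (m : ℕ) (C : ℝ) : ℝ := BES.nB E * (2 ^ m * C + 2 * cg m * 2 ^ m)

/-- **Theorem M (iii), general form.** -/
theorem bad_le {Q : ℕ} {ε δ C τ : ℝ} (D : Dat m Q δ T G h ν P S θ J z r)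
    (hM : Multi m Q ε δ C T ν P z r) (hC : 0 ≤ C) (hτ : τ ≤ δ) {e : E → ℝ} (he : Integrable e ν)
    (he0 : 0 ≤ᵐ[ν] e) {c : ℝ} (hc : 0 < c)
    (hbad : ∀ x ∈ T, x ∈ ball (T.starProjection z) r → ∀ s, 0 < s → s ≤ r →
      τ < exc m T ν P x s → ν.real (cyl T x s) ≤ 2 ^ m * C * s ^ m →
      c * s ^ m ≤ ∫ y in cyl T x s, e y ∂ν) :
    μH[m] (bad m τ T ν P z r) + ν (T.starProjection ⁻¹' bad m τ T ν P z r)
      ≤ ENNReal.ofReal (CB E m C / c * ∫ y in cyl T z (2 * r), e y ∂ν) := by
  have hfin := D.int.finite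
  have hcg := cg_pos m
  have hr := D.pos
  set B := bad m τ T ν P z r with hB
  set μ₁ : Measure E := ν.map T.starProjection + μH[m].restrict (T : Set E) with hμ₁
  set σ : Measure E := (ν.withDensity fun y => ENNReal.ofReal (e y)).map T.starProjection with hσ
  set C3 : ℝ := 2 ^ m * C + 2 * cg m * 2 ^ m with hC3
  have hC3pos : 0 < C3 := by positivity
  have hmeas : Measurable T.starProjection := T.starProjection.continuous.measurable
  have hlin : ∀ A : Set E, ∫⁻ y in A, ENNReal.ofReal (e y) ∂ν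
      = ENNReal.ofReal (∫ y in A, e y ∂ν) := by
    intro A
    rw [ofReal_integral_eq_lintegral_ofReal he.integrableOn (ae_restrict_of_ae he0)]
  have key := BES.weak_type_set μ₁ σ r (ENNReal.ofReal (c / C3)) (by
      rw [Ne, ENNReal.ofReal_eq_zero, not_le]; positivity) ENNReal.ofReal_ne_top
      (ball (T.starProjection z) (2 * r)) B ?_
  · have h1 : μH[m] B + ν (T.starProjection ⁻¹' B) ≤ μ₁ B := by
      rw [hμ₁, Measure.add_apply, add_comm]
      refine add_le_add (Measure.le_map_apply hmeas.aemeasurable _) ?_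
      have : B = B ∩ (T : Set E) := by
        ext y; exact ⟨fun hy => ⟨hy, hy.1⟩, fun hy => hy.1⟩
      calc μH[m] B = μH[m] (B ∩ (T : Set E)) := by rw [← this]
        _ ≤ _ := Measure.le_restrict_apply _ _
    have h2 : σ (ball (T.starProjection z) (2 * r))
        = ENNReal.ofReal (∫ y in cyl T z (2 * r), e y ∂ν) := by
      rw [hσ, Measure.map_apply hmeas measurableSet_ball]
      rw [withDensity_apply _ (hmeas measurableSet_ball)]
      exact hlin _
    refine h1.trans (key.trans (le_of_eq ?_))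
    rw [h2, ← ENNReal.ofReal_div_of_pos (by positivity)]
    rw [← ENNReal.ofReal_natCast, ← ENNReal.ofReal_mul (Nat.cast_nonneg _)]
    congr 1
    rw [CB, ← hC3]
    field_simp
  · intro x hx
    obtain ⟨t, ht0, htr, htex, hmass⟩ := exists_scale D hM hC hτ hx
    have hxT := hx.1
    have hxz := hx.2.1
    have hπ : T.starProjection x = x := Submodule.starProjection_eq_self_iff.2 hxT
    refine ⟨t, ht0, htr, ?_, ?_⟩
    · intro y hy
      rw [mem_closedBall] at hy
      rw [mem_ball] at hxz ⊢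
      have := dist_triangle y x (T.starProjection z)
      linarith
    · have e1 : μ₁ (closedBall x t) ≤ ENNReal.ofReal (C3 * t ^ m) := by
        rw [hμ₁, Measure.add_apply, Measure.map_apply hmeas measurableSet_closedBall, hC3,
          add_mul, ENNReal.ofReal_add (by positivity) (by positivity)]
        refine add_le_add ?_ ?_
        · have h1 : T.starProjection ⁻¹' closedBall x t ⊆ cyl T x (2 * t) := by
            intro y hy
            rw [mem_preimage, mem_closedBall] at hy
            unfold cyl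
            rw [mem_preimage, mem_ball, hπ]
            linarith
          refine (measure_mono h1).trans ?_
          rw [← ENNReal.ofReal_toReal (measure_ne_top ν (cyl T x (2 * t)))]
          exact ENNReal.ofReal_le_ofReal hmass
        · refine (lam_closedBall_le D.int.stat.dimT hxT ht0).trans (le_of_eq ?_)
          rw [mul_pow]; congr 1; ring
      have e2 : ENNReal.ofReal (c * t ^ m) ≤ σ (closedBall x t) := by
        rw [hσ, Measure.map_apply hmeas measurableSet_closedBall,
          withDensity_apply _ (hmeas measurableSet_closedBall)]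
        have h1 : cyl T x t ⊆ T.starProjection ⁻¹' closedBall x t := by
          intro y hy
          unfold cyl at hy
          rw [mem_preimage, hπ] at hy
          exact ball_subset_closedBall hy
        refine le_trans ?_ (lintegral_mono_set h1)
        rw [hlin]
        refine ENNReal.ofReal_le_ofReal (hbad x hxT hxz t ht0 htr htex (le_trans ?_ hmass))
        exact measureReal_mono (cyl_mono (by linarith))
      calc ENNReal.ofReal (c / C3) * μ₁ (closedBall x t)
          ≤ ENNReal.ofReal (c / C3) * ENNReal.ofReal (C3 * t ^ m) := by gcongr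
        _ = ENNReal.ofReal (c * t ^ m) := by
            rw [← ENNReal.ofReal_mul (by positivity)]; congr 1; field_simp
        _ ≤ _ := e2

/-- **Theorem M (iii).** -/
theorem bad_le_tilt {Q : ℕ} {ε δ C τ : ℝ} (D : Dat m Q δ T G h ν P S θ J z r)
    (hM : Multi m Q ε δ C T ν P z r) (hC : 0 ≤ C) (hτ0 : 0 < τ) (hτ : τ ≤ δ) :
    μH[m] (bad m τ T ν P z r) + ν (T.starProjection ⁻¹' bad m τ T ν P z r)
      ≤ ENNReal.ofReal (CB E m C / τ * ∫ y in cyl T z (2 * r), tilt P T y ^ 2 ∂ν) := by
  have hfin := D.int.finite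
  refine bad_le D hM hC hτ (integrable_tilt_sq D.int.loc) (Eventually.of_forall fun y =>
    sq_nonneg _) hτ0 ?_
  intro x _ _ s hs _ hex _
  unfold exc at hex
  rw [lt_div_iff₀ (by positivity)] at hex
  exact hex.le

/-- **Theorem M (iii) relative to another tilt.** -/
theorem bad_le_rel {Q : ℕ} {ε δ C τ k : ℝ} (D : Dat m Q δ T G h ν P S θ J z r)
    (hM : Multi m Q ε δ C T ν P z r) (hC : 0 ≤ C) (hτ0 : 0 < τ) (hτ : τ ≤ δ) {e : E → ℝ}
    (he : Integrable e ν) (he0 : 0 ≤ᵐ[ν] e) (hk0 : 0 ≤ k)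
    (hk : ∀ᵐ y ∂ν, y ∈ cyl T z (2 * r) → tilt P T y ^ 2 ≤ k + 2 * e y)
    (hkC : 2 ^ m * C * k ≤ τ / 2) :
    μH[m] (bad m τ T ν P z r) + ν (T.starProjection ⁻¹' bad m τ T ν P z r)
      ≤ ENNReal.ofReal (CB E m C / (τ / 4) * ∫ y in cyl T z (2 * r), e y ∂ν) := by
  have hfin := D.int.finite
  refine bad_le D hM hC hτ he he0 (by positivity) ?_
  intro x hxT hxz s hs hsr hex hmass
  unfold exc at hex
  rw [lt_div_iff₀ (by positivity)] at hex
  have hπ : T.starProjection x = x := Submodule.starProjection_eq_self_iff.2 hxT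
  have hsub : cyl T x s ⊆ cyl T z (2 * r) := by
    refine cyl_subset ?_
    rw [hπ]; rw [mem_ball] at hxz; linarith
  have h1 : ∫ y in cyl T x s, tilt P T y ^ 2 ∂ν ≤ ∫ y in cyl T x s, (k + 2 * e y) ∂ν := by
    refine setIntegral_mono_ae_restrict (integrable_tilt_sq D.int.loc).integrableOn
      ((integrable_const k).add (he.const_mul 2)).integrableOn ?_
    rw [Filter.EventuallyLE, ae_restrict_iff' isOpen_cyl.measurableSet]
    filter_upwards [hk] with y hy hyc
    exact hy (hsub hyc)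
  have h2 : ∫ y in cyl T x s, (k + 2 * e y) ∂ν
      = k * ν.real (cyl T x s) + 2 * ∫ y in cyl T x s, e y ∂ν := by
    rw [integral_add (integrable_const k) (he.const_mul 2).integrableOn, integral_const_mul]
    simp [mul_comm]
  rw [h2] at h1
  have h3 : k * ν.real (cyl T x s) ≤ τ / 2 * s ^ m := by
    calc k * ν.real (cyl T x s) ≤ k * (2 ^ m * C * s ^ m) := by gcongr
      _ = (2 ^ m * C * k) * s ^ m := by ring
      _ ≤ _ := by gcongr
  nlinarith

end Vale.Agent.P214.INTM
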