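import Vale.Agent.P214.INTM.M4
import Vale.Agent.P214.INT.ThmT
import Vale.Agent.P214.INT.NearMain

/-! Theorem M of INT, unconditional: parts (i), (ii) and the pointwise tilt bound. -/

open Set Filter Topology MeasureTheory Metric
open scoped RealInnerProductSpace ENNReal

namespace Vale.Agent.P214.INTM

open Vale.Agent.P214 Vale.Agent.P214.FV Vale.Agent.P214.INT

set_option linter.unusedSectionVars false

variable {E : Type*} [NormedAddCommGroup E] [InnerProductSpace ℝ E] [FiniteDimensional ℝ E]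
  [MeasurableSpace E] [BorelSpace E]

variable {T : Submodule ℝ E} {z x y v : E} {r s h : ℝ} {m : ℕ} {G : Set E} {ν : Measure E}
  {P : E → E →L[ℝ] E} {S : Set E} {θ : E → ℕ} {J : E → ℝ}

lemma proj_proj (T : Submodule ℝ E) (x : E) :
    T.starProjection (T.starProjection x) = T.starProjection x :=
  Submodule.starProjection_eq_self_iff.2 (T.starProjection_apply_mem x)

lemma cyl_proj : cyl T (T.starProjection x) s = cyl T x s := by
  unfold cyl; rw [proj_proj]

lemma exc_proj : exc m T ν P (T.starProjection x) s = exc m T ν P x s := by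
  unfold exc; rw [cyl_proj]

lemma htot_proj : htot m T ν (T.starProjection x) s = htot m T ν x s := by
  unfold htot; rw [proj_proj]

theorem thmN (m : ℕ) : ThmN E m := by
  intro M ε hM hε
  obtain ⟨δ, hδ, H⟩ := near_integer' (E := E) m hM hε
  refine ⟨δ, hδ, ?_⟩
  intro T G h ν P S θ J hI z r hr hG hmass hex
  have h1 := H T G h ν P S θ J (T.starProjection z) r hI (T.starProjection_apply_mem z) hr
    (by rw [cyl_proj]; exact preimage_mono hG) (by rwa [cyl_proj]) (by rwa [exc_proj])
  rwa [htot_proj] at h1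

theorem thmT (m : ℕ) : ThmT E m := fun M ε hM hε => sheets_le_htot m M ε hM hε

lemma Dat.mono {Q : ℕ} {δ δ' : ℝ} (D : Dat m Q δ T G h ν P S θ J z r) (hδ : δ ≤ δ') :
    Dat m Q δ' T G h ν P S θ J z r :=
  ⟨D.int, D.pos, D.sub, D.near, D.small.trans hδ⟩

lemma Multi.mono {Q : ℕ} {ε ε' δ δ' C C' : ℝ} (hM : Multi m Q ε δ C T ν P z r) (hε : ε ≤ ε')
    (hδ : δ' ≤ δ) (hC : C ≤ C') (hr : 0 < r) : Multi m Q ε' δ' C' T ν P z r := by
  refine ⟨hM.1.trans (by gcongr), fun x hx s hs hsr hex => ?_⟩
  obtain ⟨h1, h2⟩ := hM.2 x hx s hs hsr fun s' h1 h2 => (hex s' h1 h2).trans hδ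
  refine ⟨fun t h3 h4 => (h1 t h3 h4).trans hε, fun t h3 h4 => (h2 t h3 h4).trans ?_⟩
  have : 0 ≤ t := by linarith
  gcongr

/-- pointwise bound of the tilt over good points -/
lemma tilt_le_ae (hI : IntCyl m T G h ν P S θ J) {τ : ℝ} (hr : 0 < r)
    (hG : ball (T.starProjection z) (2 * r) ⊆ G) :
    ∀ᵐ y ∂ν, T.starProjection y ∈ good m τ T ν P z r →
      INT.tilt P T y ^ 2 ≤ 2 ^ m / cg m * τ := by
  have hcg := cg_pos m
  have hfin := hI.finite
  have hL := hI.loc
  have hint := integrable_tilt_sq (T := T) hL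
  have h1 := (Besicovitch.vitaliFamily ν).ae_tendsto_average_norm_sub hint.locallyIntegrable
  have hS : ∀ᵐ y ∂ν, y ∈ S := by
    rw [ae_iff]; exact hI.nullS
  filter_upwards [h1, hS] with y hy hyS hgood
  have hy' := hy.comp (Besicovitch.tendsto_filterAt ν y)
  obtain ⟨hyT, hyz, hex⟩ := hgood
  have hθ : (1:ℝ) ≤ θ y := by exact_mod_cast hI.one_le y hyS
  -- inequality at every small scale
  have key : ∀ s, 0 < s → s ≤ r / 2 → INT.tilt P T y ^ 2 ≤ 2 ^ m / cg m * τ
      + ⨍ w in closedBall y s, ‖INT.tilt P T w ^ 2 - INT.tilt P T y ^ 2‖ ∂ν := by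
    intro s hs hsr
    have hball : closedBall y s ⊆ T.starProjection ⁻¹' G := by
      intro w hw
      refine hG ?_
      rw [mem_closedBall, dist_eq_norm] at hw
      rw [mem_ball] at hyz ⊢
      have h2 : dist (T.starProjection w) (T.starProjection y) ≤ s := by
        rw [dist_eq_norm, ← map_sub]; exact (norm_star_le T _).trans hw
      have := dist_triangle (T.starProjection w) (T.starProjection y) (T.starProjection z)
      linarith
    have h2 := hI.theta_le_ratio hyS hs hball
    have h3 : cg m * s ^ m ≤ ν.real (closedBall y s) := by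
      have h4 : ratio m ν y s * s ^ m ≤ ν.real (ball y s) := by
        unfold ratio
        rw [div_mul_cancel₀ _ (by positivity)]
        exact cut_integral_le hs
      have h5 : ν.real (ball y s) ≤ ν.real (closedBall y s) :=
        measureReal_mono ball_subset_closedBall
      have h6 : cg m * s ^ m ≤ θ y * cg m * s ^ m := by
        have : cg m ≤ θ y * cg m := by nlinarith
        gcongr
      have h7 : θ y * cg m * s ^ m ≤ ratio m ν y s * s ^ m := by gcongr
      linarith
    have hpos : 0 < ν.real (closedBall y s) := lt_of_lt_of_le (by positivity) h3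
    have h4 : ∫ w in closedBall y s, INT.tilt P T w ^ 2 ∂ν ≤ τ * (2 * s) ^ m := by
      have h5 : closedBall y s ⊆ cyl T (T.starProjection y) (2 * s) := by
        intro w hw
        rw [mem_cyl, map_sub, proj_proj, ← map_sub]
        rw [mem_closedBall, dist_eq_norm] at hw
        exact ((norm_star_le T _).trans hw).trans_lt (by linarith)
      exact (X2_mono hI.stat h5).trans (X2_le_of_exc (by positivity)
        (hex (2 * s) (by positivity) (by linarith)))
    set a := INT.tilt P T y ^ 2 with ha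
    have h5 : a * ν.real (closedBall y s) ≤ ∫ w in closedBall y s, INT.tilt P T w ^ 2 ∂ν
        + ∫ w in closedBall y s, ‖INT.tilt P T w ^ 2 - a‖ ∂ν := by
      have hi2 : Integrable (fun w => ‖INT.tilt P T w ^ 2 - a‖) ν :=
        (hint.sub (integrable_const a)).norm
      rw [← integral_add hint.integrableOn hi2.integrableOn]
      have : a * ν.real (closedBall y s) = ∫ w in closedBall y s, a ∂ν := by
        simp [mul_comm]
      rw [this]
      refine setIntegral_mono (integrable_const a).integrableOn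
        (hint.add hi2).integrableOn fun w => ?_
      beta_reduce
      have := neg_abs_le (INT.tilt P T w ^ 2 - a)
      rw [← Real.norm_eq_abs] at this
      linarith
    have h6 : ∫ w in closedBall y s, ‖INT.tilt P T w ^ 2 - a‖ ∂ν = ν.real (closedBall y s)
        * ⨍ w in closedBall y s, ‖INT.tilt P T w ^ 2 - a‖ ∂ν := by
      have := measure_smul_setAverage (fun w => ‖INT.tilt P T w ^ 2 - a‖)
        (measure_ne_top ν (closedBall y s))
      rw [smul_eq_mul] at this
      exact this.symm
    rw [h6] at h5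
    have hτ : 0 ≤ τ * (2 * s) ^ m := le_trans (integral_nonneg fun _ => sq_nonneg _) h4
    have h7 : τ * (2 * s) ^ m ≤ 2 ^ m / cg m * τ * ν.real (closedBall y s) := by
      have h8 : 0 ≤ τ := by
        by_contra hc
        have : τ * (2 * s) ^ m < 0 := mul_neg_of_neg_of_pos (not_le.1 hc) (by positivity)
        linarith
      calc τ * (2 * s) ^ m = 2 ^ m / cg m * τ * (cg m * s ^ m) := by
            rw [mul_pow]; field_simp
        _ ≤ _ := by gcongr
    have h8 : a * ν.real (closedBall y s) ≤ (2 ^ m / cg m * τ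
        + ⨍ w in closedBall y s, ‖INT.tilt P T w ^ 2 - a‖ ∂ν) * ν.real (closedBall y s) := by
      rw [add_mul]; linarith
    exact le_of_mul_le_mul_right h8 hpos
  have h2 : Tendsto (fun s => 2 ^ m / cg m * τ
      + ⨍ w in closedBall y s, ‖INT.tilt P T w ^ 2 - INT.tilt P T y ^ 2‖ ∂ν) (𝓝[>] 0)
      (𝓝 (2 ^ m / cg m * τ + 0)) := tendsto_const_nhds.add hy'
  rw [add_zero] at h2
  refine ge_of_tendsto h2 ?_
  have h3 : Ioc (0:ℝ) (r / 2) ∈ 𝓝[>] (0:ℝ) := Ioc_mem_nhdsGT (by positivity)
  filter_upwards [h3] with s hs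
  exact key s hs.1 hs.2

/-- **Theorem M (i), (ii).** -/
theorem thmM (m Q : ℕ) {ε : ℝ} (hε : 0 < ε) : ∃ δ C : ℝ, 0 < δ ∧ 0 < C ∧
    ∀ (T : Submodule ℝ E) (G : Set E) (h : ℝ) (ν : Measure E) (P : E → E →L[ℝ] E) (S : Set E)
      (θ : E → ℕ) (J : E → ℝ) (z : E) (r : ℝ), Dat m Q δ T G h ν P S θ J z r →
      Multi m Q ε δ C T ν P z r ∧
      (∀ τ, τ ≤ δ → ∀ᵐ x ∂(μH[m].restrict (T : Set E)), x ∈ good m τ T ν P z r →
        sheets T S θ univ x = Q) ∧
      (∀ τ, τ ≤ δ → ∀ᵐ y ∂ν, T.starProjection y ∈ good m τ T ν P z r →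
        INT.tilt P T y ^ 2 ≤ C * τ) := by
  have hcg := cg_pos m
  obtain ⟨δ₁, C₁, hδ₁, hC₁, H₁⟩ := multi (thmN (E := E) m) Q
    (lt_min hε (by norm_num : (0:ℝ) < 1 / 8))
  obtain ⟨δ₂, hδ₂, H₂⟩ := thmT (E := E) m (2 ^ m * C₁) (1 / 8) (by positivity) (by norm_num)
  set δ₃ : ℝ := cg m / (8 * (m + 1)) with hδ₃
  have hδ₃0 : 0 < δ₃ := by positivity
  set δ : ℝ := min δ₁ (min δ₂ (min δ₃ (D0 E m))) with hδ
  have hd1 : δ ≤ δ₁ := min_le_left _ _
  have hd2 : δ ≤ δ₂ := (min_le_right _ _).trans (min_le_left _ _)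
  have hd3 : δ ≤ δ₃ := (min_le_right _ _).trans ((min_le_right _ _).trans (min_le_left _ _))
  have hd4 : δ ≤ D0 E m := (min_le_right _ _).trans ((min_le_right _ _).trans (min_le_right _ _))
  have hδ0 : 0 < δ := lt_min hδ₁ (lt_min hδ₂ (lt_min hδ₃0 (D0_pos m)))
  refine ⟨δ, C₁ + M0 m Q + 2 ^ m / cg m, hδ0, by have := M0_pos m Q; positivity, ?_⟩
  intro T G h ν P S θ J z r D
  have hfin := D.int.finite
  have hr := D.pos
  have hM0 := M0_pos m Q
  have hMu : Multi m Q (min ε (1 / 8)) δ₁ (C₁ + M0 m Q) T ν P z r := by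
    refine ⟨(D.mass_top hd4).trans (by gcongr; linarith), fun x hx s hs hsr hex => ?_⟩
    obtain ⟨h1, h2⟩ := H₁ T G h ν P S θ J z r (D.mono hd1) x hx s hs hsr hex
    refine ⟨h1, fun t h3 h4 => (h2 t h3 h4).trans ?_⟩
    have : 0 ≤ t := by linarith
    gcongr
    linarith
  refine ⟨hMu.mono (min_le_left _ _) hd1 (by
    have : 0 ≤ 2 ^ m / cg m := by positivity
    linarith) hr, fun τ hτ => ?_, fun τ hτ => ?_⟩
  · have hlow := nat_le_sheets_ae D.int (Q := Q) (ε := 1 / 8) (τ := τ) (by
      have h1 : m * τ / cg m ≤ 1 / 8 := by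
        rw [div_le_iff₀ hcg]
        have h2 : τ ≤ cg m / (8 * (m + 1)) := hτ.trans hd3
        rw [le_div_iff₀ (by positivity)] at h2
        rcases le_total 0 τ with h0 | h0
        · nlinarith
        · have : (m:ℝ) * τ ≤ 0 := mul_nonpos_of_nonneg_of_nonpos (by positivity) h0
          linarith
      linarith)
    filter_upwards [hlow] with x hx hgood
    obtain ⟨hxT, hxz, hex⟩ := hgood
    have hπ : T.starProjection x = x := Submodule.starProjection_eq_self_iff.2 hxT
    have hxz' : T.starProjection x ∈ ball (T.starProjection z) r := by rwa [hπ]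
    refine le_antisymm ?_ ?_
    · have h1 := H₂ T G h ν P S θ J D.int x (r / 2) (by positivity) ?_ ?_ ?_
      · rw [hπ] at h1
        refine sheets_le_nat (h1.trans (ENNReal.ofReal_le_ofReal ?_))
        have h2 := (H₁ T G h ν P S θ J z r (D.mono hd1) x hxz' (r / 2) (by positivity)
          (by linarith) fun s' h3 h4 => (hex s' (by linarith) h4).trans (hτ.trans hd1)).1 (r / 2)
          (by linarith) (by linarith)
        have h3 := (abs_le.1 h2).2
        have h4 : min ε (1 / 8) ≤ 1 / 8 := min_le_right _ _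
        linarith
      · have : 2 * (r / 2) = r := by ring
        rw [this]
        exact ball_subset_closedBall.trans (D.ball_sub hxz' (by linarith))
      · have e : 2 * (r / 2) = r := by ring
        rw [e]
        have h2 := (H₁ T G h ν P S θ J z r (D.mono hd1) x hxz' (r / 2) (by positivity)
          (by linarith) fun s' h3 h4 => (hex s' (by linarith) h4).trans (hτ.trans hd1)).2 r
          (by linarith) (by linarith)
        refine h2.trans (le_of_eq ?_)
        rw [div_pow]; field_simp
      · intro s hs hsr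
        exact (hex s hs (by linarith)).trans (hτ.trans hd2)
    · refine hx hxT ⟨r, hr, fun s hs hsr => ⟨?_, hex s hs hsr⟩⟩
      have h2 := (H₁ T G h ν P S θ J z r (D.mono hd1) x hxz' s hs hsr
        fun s' h3 h4 => (hex s' (by linarith) h4).trans (hτ.trans hd1)).1 s
        (by linarith) hsr
      have h3 := (abs_le.1 h2).1
      have h4 : min ε (1 / 8) ≤ 1 / 8 := min_le_right _ _
      linarith
  · have h1 := tilt_le_ae D.int (z := z) (τ := τ) hr
      ((ball_subset_ball (by linarith)).trans D.sub)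
    filter_upwards [h1] with y hy hgood
    refine (hy hgood).trans ?_
    have hτ0 : 0 ≤ τ := by
      obtain ⟨-, -, hex⟩ := hgood
      have h2 := hex r hr le_rfl
      refine le_trans ?_ h2
      exact div_nonneg (integral_nonneg fun _ => sq_nonneg _) (by positivity)
    gcongr
    linarith

end Vale.Agent.P214.INTM
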